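import Mathlib

set_option autoImplicit false
set_option linter.unusedSectionVars false
set_option linter.unusedVariables false

open Finset

namespace Crest.Agent.H7.Dr

variable {V : Type*} [Fintype V] [DecidableEq V]

/-- vertex weights -/
noncomputable def pw (m : V × V → ℝ) (x : V) : ℝ := ∑ y, (m (x, y) + m (y, x))

/-- conductances -/
noncomputable def cc (κ m : V × V → ℝ) (x y : V) : ℝ :=
  m (x, y) * κ (x, y) ^ 2 + m (y, x) * κ (y, x) ^ 2

/-- slope field -/
def sig (κ : V × V → ℝ) (u : V → ℝ) (e : V × V) : ℝ := κ e * (u e.1 - u e.2)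

noncomputable def ip (m : V × V → ℝ) (u w : V → ℝ) : ℝ := ∑ x, pw m x * (u x * w x)

/-- lazy step -/
noncomputable def stepA (κ m : V × V → ℝ) (s : ℝ) : Module.End ℝ (V → ℝ) where
  toFun u := fun x => u x - s / pw m x * ∑ y, cc κ m x y * (u x - u y)
  map_add' u w := by
    funext x
    simp only [Pi.add_apply]
    have : ∑ y, cc κ m x y * (u x + w x - (u y + w y)) =
        ∑ y, cc κ m x y * (u x - u y) + ∑ y, cc κ m x y * (w x - w y) := by
      rw [← sum_add_distrib]; exact sum_congr rfl fun y _ => by ring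
    rw [this]; ring
  map_smul' c u := by
    funext x
    simp only [Pi.smul_apply, smul_eq_mul, RingHom.id_apply]
    have : ∑ y, cc κ m x y * (c * u x - c * u y) = c * ∑ y, cc κ m x y * (u x - u y) := by
      rw [mul_sum]; exact sum_congr rfl fun y _ => by ring
    rw [this]; ring

lemma stepA_apply (κ m : V × V → ℝ) (s : ℝ) (u : V → ℝ) (x : V) :
    stepA κ m s u x = u x - s / pw m x * ∑ y, cc κ m x y * (u x - u y) := rfl

lemma sum_swap' (F : V × V → ℝ) : ∑ x, ∑ y, F (y, x) = ∑ e, F e := by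
  rw [sum_comm, ← Fintype.sum_prod_type]

lemma sum_edge_pw (m : V × V → ℝ) (G : V → ℝ) :
    ∑ e, m e * (G e.1 + G e.2) = ∑ x, pw m x * G x := by
  have h1 : ∑ e : V × V, m e * G e.1 = ∑ x, ∑ y, m (x, y) * G x := by
    rw [Fintype.sum_prod_type]
  have h2 : ∑ e : V × V, m e * G e.2 = ∑ x, ∑ y, m (y, x) * G x := by
    rw [← sum_swap' (fun e => m e * G e.2)]
  simp only [mul_add, sum_add_distrib, h1, h2, pw, sum_mul, add_mul]

lemma sum_cc (κ m : V × V → ℝ) (F : V → V → ℝ) :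
    ∑ x, ∑ y, cc κ m x y * F x y = ∑ e, m e * κ e ^ 2 * (F e.1 e.2 + F e.2 e.1) := by
  have h1 : ∑ e : V × V, m e * κ e ^ 2 * F e.1 e.2 =
      ∑ x, ∑ y, m (x, y) * κ (x, y) ^ 2 * F x y := by
    rw [Fintype.sum_prod_type]
  have h2 : ∑ e : V × V, m e * κ e ^ 2 * F e.2 e.1 =
      ∑ x, ∑ y, m (y, x) * κ (y, x) ^ 2 * F x y := by
    rw [← sum_swap' (fun e => m e * κ e ^ 2 * F e.2 e.1)]
  simp only [mul_add, sum_add_distrib, h1, h2, cc, add_mul]

variable {κ m : V × V → ℝ} {s : ℝ}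

lemma pw_pos (hm : ∀ e, 0 < m e) (x : V) : 0 < pw m x :=
  sum_pos (fun y _ => add_pos (hm _) (hm _)) ⟨x, mem_univ _⟩

lemma cc_nonneg (hm : ∀ e, 0 < m e) (x y : V) : 0 ≤ cc κ m x y :=
  add_nonneg (mul_nonneg (hm _).le (sq_nonneg _)) (mul_nonneg (hm _).le (sq_nonneg _))

lemma pw_mul_step (hm : ∀ e, 0 < m e) (u : V → ℝ) (x : V) :
    pw m x * stepA κ m s u x = pw m x * u x - s * ∑ y, cc κ m x y * (u x - u y) := by
  rw [stepA_apply]
  have := (pw_pos hm x).ne'
  field_simp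

lemma ip_step (hm : ∀ e, 0 < m e) (u w : V → ℝ) :
    ip m (stepA κ m s u) w = ip m u w - s * ∑ e, m e * (sig κ u e * sig κ w e) := by
  have h := sum_cc κ m (fun x y => (u x - u y) * w x)
  have h2 : ∑ e, m e * (sig κ u e * sig κ w e) =
      ∑ e : V × V, m e * κ e ^ 2 * ((u e.1 - u e.2) * w e.1 + (u e.2 - u e.1) * w e.2) :=
    sum_congr rfl fun e _ => by simp only [sig]; ring
  rw [h2, ← h, ip, ip, mul_sum, ← sum_sub_distrib]
  refine sum_congr rfl fun x _ => ?_
  rw [← mul_assoc, pw_mul_step hm]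
  have : ∑ y, cc κ m x y * ((u x - u y) * w x) = (∑ y, cc κ m x y * (u x - u y)) * w x := by
    rw [sum_mul]; exact sum_congr rfl fun y _ => by ring
  rw [this]; ring

lemma ip_comm (u w : V → ℝ) : ip m u w = ip m w u :=
  sum_congr rfl fun x _ => by ring

lemma ip_step_comm (hm : ∀ e, 0 < m e) (u w : V → ℝ) :
    ip m (stepA κ m s u) w = ip m u (stepA κ m s w) := by
  rw [ip_step hm, ip_comm u (stepA κ m s w), ip_step hm, ip_comm w u]
  congr 2
  exact sum_congr rfl fun e _ => by ring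

lemma ip_pow_comm (hm : ∀ e, 0 < m e) (t : ℕ) (u w : V → ℝ) :
    ip m ((stepA κ m s ^ t) u) w = ip m u ((stepA κ m s ^ t) w) := by
  induction t generalizing w with
  | zero => simp
  | succ t ih =>
    rw [pow_succ', Module.End.mul_apply, ip_step_comm hm, ih, ← Module.End.mul_apply, ← pow_succ,
      pow_succ']

lemma sum_step (hm : ∀ e, 0 < m e) (u : V → ℝ) :
    ∑ x, pw m x * stepA κ m s u x = ∑ x, pw m x * u x := by
  have h := ip_step (κ := κ) (s := s) hm u (fun _ => 1)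
  simp only [ip, sig, mul_one, sub_self, mul_zero, sum_const_zero, sub_zero] at h
  exact h

/-- the Jensen gap of the lazy step -/
lemma gap (hm : ∀ e, 0 < m e) (hs : 0 ≤ s) (hlazy : ∀ x, s * ∑ y, cc κ m x y ≤ pw m x / 2)
    (φ : ℝ → ℝ) (u g φ' r : V → ℝ)
    (hB : ∀ x y, (y = x ∨ s * cc κ m x y ≠ 0) →
      (g y - r x) ^ 2 ≤ φ (u y) - φ (stepA κ m s u x) - φ' x * (u y - stepA κ m s u x)) :
    s * ∑ e, m e * (sig κ g e) ^ 2 ≤
      ∑ x, pw m x * φ (u x) - ∑ x, pw m x * φ (stepA κ m s u x) := by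
  have h1 : ∑ x, pw m x * φ (u x) = ∑ x, pw m x * stepA κ m s (fun y => φ (u y)) x :=
    (sum_step hm (fun y => φ (u y))).symm
  have h2 : ∑ x, ∑ y, cc κ m x y * ((g x - g y) ^ 2 / 2) = ∑ e, m e * (sig κ g e) ^ 2 := by
    rw [sum_cc κ m (fun x y => (g x - g y) ^ 2 / 2)]
    exact sum_congr rfl fun e _ => by simp only [sig]; ring
  rw [h1, ← h2, ← sum_sub_distrib, mul_sum]
  refine sum_le_sum fun x _ => ?_
  set a := stepA κ m s u x with ha
  set Ψ : V → ℝ := fun y => φ (u y) - φ a - φ' x * (u y - a) with hΨ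
  have hpa : pw m x * a = pw m x * u x - s * ∑ y, cc κ m x y * (u x - u y) := pw_mul_step hm u x
  have e1 : pw m x * stepA κ m s (fun y => φ (u y)) x - pw m x * φ a =
      (pw m x - s * ∑ y, cc κ m x y) * Ψ x + ∑ y, s * cc κ m x y * Ψ y := by
    rw [pw_mul_step hm]
    have e2 : ∑ y, cc κ m x y * (φ (u x) - φ (u y)) =
        (∑ y, cc κ m x y) * Ψ x - ∑ y, cc κ m x y * Ψ y +
          φ' x * ∑ y, cc κ m x y * (u x - u y) := by
      rw [sum_mul, mul_sum, ← sum_sub_distrib, ← sum_add_distrib]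
      exact sum_congr rfl fun y _ => by simp only [hΨ]; ring
    have e3 : ∑ y, s * cc κ m x y * Ψ y = s * ∑ y, cc κ m x y * Ψ y := by
      rw [mul_sum]; exact sum_congr rfl fun y _ => by ring
    rw [e2, e3]
    have e4 : Ψ x = φ (u x) - φ a - φ' x * (u x - a) := rfl
    linear_combination (-(pw m x)) * e4 - φ' x * hpa
  rw [e1]
  have hx : (g x - r x) ^ 2 ≤ Ψ x := hB x x (Or.inl rfl)
  have hC : 0 ≤ s * ∑ y, cc κ m x y := mul_nonneg hs (sum_nonneg fun y _ => cc_nonneg hm x y)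
  have h3 : (s * ∑ y, cc κ m x y) * (g x - r x) ^ 2 ≤ (pw m x - s * ∑ y, cc κ m x y) * Ψ x := by
    have := hlazy x
    exact mul_le_mul (by linarith) hx (sq_nonneg _) (by linarith)
  have h4 : ∑ y, s * cc κ m x y * (g y - r x) ^ 2 ≤ ∑ y, s * cc κ m x y * Ψ y := by
    refine sum_le_sum fun y _ => ?_
    by_cases hy : s * cc κ m x y = 0
    · rw [hy]; simp
    · exact mul_le_mul_of_nonneg_left (hB x y (Or.inr hy)) (mul_nonneg hs (cc_nonneg hm x y))
  have h5 : s * ∑ y, cc κ m x y * ((g x - g y) ^ 2 / 2) ≤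
      (s * ∑ y, cc κ m x y) * (g x - r x) ^ 2 + ∑ y, s * cc κ m x y * (g y - r x) ^ 2 := by
    rw [mul_sum, mul_sum, sum_mul, ← sum_add_distrib]
    refine sum_le_sum fun y _ => ?_
    have h6 : (g x - g y) ^ 2 / 2 ≤ (g x - r x) ^ 2 + (g y - r x) ^ 2 := by
      nlinarith [sq_nonneg (g x + g y - 2 * r x)]
    have := mul_le_mul_of_nonneg_left h6 (mul_nonneg hs (cc_nonneg (κ := κ) hm x y))
    linarith
  linarith

lemma step_lower (hm : ∀ e, 0 < m e) (hs : 0 ≤ s) (hlazy : ∀ x, s * ∑ y, cc κ m x y ≤ pw m x / 2)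
    (u : V → ℝ) (hu : ∀ x, 0 ≤ u x) (x : V) :
    pw m x / 2 * u x + ∑ y, s * cc κ m x y * u y ≤ pw m x * stepA κ m s u x := by
  rw [pw_mul_step hm]
  have e : s * ∑ y, cc κ m x y * (u x - u y) =
      (s * ∑ y, cc κ m x y) * u x - ∑ y, s * cc κ m x y * u y := by
    rw [mul_sum, mul_sum, sum_mul, ← sum_sub_distrib]
    exact sum_congr rfl fun y _ => by ring
  rw [e]
  have := mul_le_mul_of_nonneg_right (hlazy x) (hu x)
  linarith

lemma step_nonneg (hm : ∀ e, 0 < m e) (hs : 0 ≤ s) (hlazy : ∀ x, s * ∑ y, cc κ m x y ≤ pw m x / 2)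
    (u : V → ℝ) (hu : ∀ x, 0 ≤ u x) (x : V) : 0 ≤ stepA κ m s u x := by
  have h := step_lower hm hs hlazy u hu x
  have h1 : 0 ≤ ∑ y, s * cc κ m x y * u y :=
    sum_nonneg fun y _ => mul_nonneg (mul_nonneg hs (cc_nonneg hm x y)) (hu y)
  have h2 : 0 ≤ pw m x / 2 * u x := mul_nonneg (by linarith [pw_pos hm x]) (hu x)
  exact (mul_nonneg_iff_of_pos_left (pw_pos hm x)).1 (by linarith)

lemma bregman_ent {a b : ℝ} (ha : 0 < a) (hb : 0 ≤ b) :
    (√b - √a) ^ 2 ≤ b * Real.log b - a * Real.log a - (Real.log a + 1) * (b - a) := by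
  have hsa : 0 < √a := Real.sqrt_pos.2 ha
  have e1 : √a ^ 2 = a := Real.sq_sqrt ha.le
  have e2 : √b ^ 2 = b := Real.sq_sqrt hb
  rcases hb.eq_or_lt with hb0 | hb0
  · subst hb0
    simp only [Real.sqrt_zero, zero_sub, zero_mul]
    nlinarith
  · have hsb : 0 < √b := Real.sqrt_pos.2 hb0
    have h1 : Real.log (√a / √b) ≤ √a / √b - 1 := Real.log_le_sub_one_of_pos (by positivity)
    rw [Real.log_div hsa.ne' hsb.ne', Real.log_sqrt ha.le, Real.log_sqrt hb0.le] at h1
    have h2 : b * (√a / √b) = √a * √b := by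
      field_simp
      exact e2.symm
    have h3 := mul_le_mul_of_nonneg_left h1 hb0.le
    nlinarith

noncomputable def Ent (m : V × V → ℝ) (h : V → ℝ) : ℝ := ∑ x, pw m x * (h x * Real.log (h x))

lemma ent_gap (hm : ∀ e, 0 < m e) (hs : 0 ≤ s) (hlazy : ∀ x, s * ∑ y, cc κ m x y ≤ pw m x / 2)
    (h : V → ℝ) (hh : ∀ x, 0 ≤ h x) :
    s * ∑ e, m e * (sig κ (fun x => √(h x)) e) ^ 2 ≤ Ent m h - Ent m (stepA κ m s h) := by
  refine gap hm hs hlazy (fun t => t * Real.log t) h (fun x => √(h x))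
    (fun x => Real.log (stepA κ m s h x) + 1) (fun x => √(stepA κ m s h x)) ?_
  intro x y hy
  rcases (step_nonneg hm hs hlazy h hh x).eq_or_lt with h0 | h0
  · have hl := step_lower hm hs hlazy h hh x
    rw [← h0, mul_zero] at hl
    have h1 : ∀ y, 0 ≤ s * cc κ m x y * h y := fun y =>
      mul_nonneg (mul_nonneg hs (cc_nonneg hm x y)) (hh y)
    have h2 : 0 ≤ pw m x / 2 * h x := mul_nonneg (by linarith [pw_pos hm x]) (hh x)
    have h3 : 0 ≤ ∑ y, s * cc κ m x y * h y := sum_nonneg fun y _ => h1 y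
    have hy0 : h y = 0 := by
      rcases hy with rfl | hy
      · have : pw m y / 2 * h y = 0 := by linarith
        rcases mul_eq_zero.1 this with h4 | h4
        · linarith [pw_pos hm y]
        · exact h4
      · have h4 : s * cc κ m x y * h y ≤ ∑ y, s * cc κ m x y * h y :=
          single_le_sum (fun y _ => h1 y) (mem_univ y)
        have h5 : s * cc κ m x y * h y = 0 := by linarith [h1 y]
        exact (mul_eq_zero.1 h5).resolve_left hy
    rw [← h0, hy0]; simp
  · exact bregman_ent h0 (hh y)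

lemma sq_gap (hm : ∀ e, 0 < m e) (hs : 0 ≤ s) (hlazy : ∀ x, s * ∑ y, cc κ m x y ≤ pw m x / 2)
    (u : V → ℝ) :
    s * ∑ e, m e * (sig κ u e) ^ 2 ≤
      ∑ x, pw m x * u x ^ 2 - ∑ x, pw m x * (stepA κ m s u x) ^ 2 :=
  gap hm hs hlazy (fun t => t ^ 2) u u (fun x => 2 * stepA κ m s u x) (stepA κ m s u)
    fun x y _ => le_of_eq (by ring)

noncomputable def FF (κ m : V × V → ℝ) (h : V → ℝ) : ℝ := ∑ e, m e * |sig κ h e|

lemma FF_nonneg (hm : ∀ e, 0 < m e) (h : V → ℝ) : 0 ≤ FF κ m h :=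
  sum_nonneg fun e _ => mul_nonneg (hm e).le (abs_nonneg _)

lemma FF_sq_le (hm : ∀ e, 0 < m e) (h : V → ℝ) (hh : ∀ x, 0 ≤ h x)
    (h1 : ∑ x, pw m x * h x = 1) :
    FF κ m h ^ 2 ≤ 2 * ∑ e, m e * (sig κ (fun x => √(h x)) e) ^ 2 := by
  have key := sum_mul_sq_le_sq_mul_sq univ
    (fun e : V × V => √(m e) * |sig κ (fun x => √(h x)) e|)
    (fun e : V × V => √(m e) * (√(h e.1) + √(h e.2)))
  have e1 : FF κ m h = ∑ e : V × V, (√(m e) * |sig κ (fun x => √(h x)) e|) *
      (√(m e) * (√(h e.1) + √(h e.2))) := by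
    refine sum_congr rfl fun e _ => ?_
    have a1 : √(m e) * √(m e) = m e := Real.mul_self_sqrt (hm e).le
    have a2 : sig κ h e = sig κ (fun x => √(h x)) e * (√(h e.1) + √(h e.2)) := by
      simp only [sig]
      have b1 : √(h e.1) * √(h e.1) = h e.1 := Real.mul_self_sqrt (hh _)
      have b2 : √(h e.2) * √(h e.2) = h e.2 := Real.mul_self_sqrt (hh _)
      linear_combination κ e * (b2 - b1)
    rw [a2, abs_mul, abs_of_nonneg (a := √(h e.1) + √(h e.2)) (by positivity)]
    linear_combination (-(|sig κ (fun x => √(h x)) e| * (√(h e.1) + √(h e.2)))) * a1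
  have e2 : ∑ e : V × V, (√(m e) * |sig κ (fun x => √(h x)) e|) ^ 2 =
      ∑ e, m e * (sig κ (fun x => √(h x)) e) ^ 2 := by
    refine sum_congr rfl fun e _ => ?_
    rw [mul_pow, Real.sq_sqrt (hm e).le, sq_abs]
  have e3 : ∑ e : V × V, (√(m e) * (√(h e.1) + √(h e.2))) ^ 2 ≤ 2 := by
    have := sum_edge_pw m h
    rw [h1] at this
    calc _ ≤ ∑ e : V × V, 2 * (m e * (h e.1 + h e.2)) := by
          refine sum_le_sum fun e _ => ?_
          rw [mul_pow, Real.sq_sqrt (hm e).le]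
          have b1 : √(h e.1) ^ 2 = h e.1 := Real.sq_sqrt (hh _)
          have b2 : √(h e.2) ^ 2 = h e.2 := Real.sq_sqrt (hh _)
          have : (√(h e.1) + √(h e.2)) ^ 2 ≤ 2 * (h e.1 + h e.2) := by
            nlinarith [sq_nonneg (√(h e.1) - √(h e.2))]
          nlinarith [hm e]
      _ = 2 := by rw [← mul_sum, this]; norm_num
  rw [e1]
  refine key.trans ?_
  rw [e2, mul_comm]
  exact mul_le_mul_of_nonneg_right e3
    (sum_nonneg fun e _ => mul_nonneg (hm e).le (sq_nonneg _))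

lemma ent_lower (hm : ∀ e, 0 < m e) (h : V → ℝ) (hh : ∀ x, 0 ≤ h x)
    (h1 : ∑ x, pw m x * h x = 1) : - Real.log (∑ x, pw m x) ≤ Ent m h := by
  have hne : (univ : Finset V).Nonempty := by
    by_contra hc
    rw [not_nonempty_iff_eq_empty] at hc
    rw [hc] at h1; simp at h1
  set P := ∑ x, pw m x with hP
  have hP0 : 0 < P := sum_pos (fun x _ => pw_pos hm x) hne
  have key : ∀ x, h x * (- Real.log P) + h x - 1 / P ≤ h x * Real.log (h x) := by
    intro x
    have := bregman_ent (a := 1 / P) (b := h x) (by positivity) (hh x)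
    rw [one_div, Real.log_inv] at this
    rw [one_div]
    nlinarith [sq_nonneg (√(h x) - √(P⁻¹))]
  calc - Real.log P = ∑ x, pw m x * (h x * (- Real.log P) + h x - 1 / P) := by
        have : ∑ x, pw m x * (h x * (- Real.log P) + h x - 1 / P) =
            (∑ x, pw m x * h x) * (- Real.log P) + ∑ x, pw m x * h x - (∑ x, pw m x) * (1 / P) := by
          rw [sum_mul, sum_mul, ← sum_add_distrib, ← sum_sub_distrib]
          exact sum_congr rfl fun x _ => by ring
        rw [this, h1, ← hP]; field_simp; ring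
    _ ≤ _ := sum_le_sum fun x _ => mul_le_mul_of_nonneg_left (key x) (pw_pos hm x).le

/-- normalised point mass -/
noncomputable def h0 (m : V × V → ℝ) (z : V) : V → ℝ := fun x => if x = z then 1 / pw m z else 0

lemma ip_h0 (hm : ∀ e, 0 < m e) (u : V → ℝ) (z : V) : ip m u (h0 m z) = u z := by
  unfold ip h0
  rw [sum_eq_single z (fun x _ hx => by simp [hx]) (by simp)]
  have := (pw_pos hm z).ne'
  simp only [if_true]; field_simp

lemma heat_props (hm : ∀ e, 0 < m e) (hs : 0 ≤ s)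
    (hlazy : ∀ x, s * ∑ y, cc κ m x y ≤ pw m x / 2) (z : V) (t : ℕ) :
    (∀ x, 0 ≤ (stepA κ m s ^ t) (h0 m z) x) ∧ ∑ x, pw m x * (stepA κ m s ^ t) (h0 m z) x = 1 := by
  induction t with
  | zero =>
    refine ⟨fun x => ?_, ?_⟩
    · simp only [pow_zero, Module.End.one_apply, h0]
      split_ifs
      · exact (one_div_pos.2 (pw_pos hm z)).le
      · exact le_rfl
    · have := ip_h0 hm (fun _ => 1) z
      simpa [ip] using this
  | succ t ih =>
    rw [pow_succ', Module.End.mul_apply]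
    exact ⟨step_nonneg hm hs hlazy _ ih.1, by rw [sum_step hm, ih.2]⟩

lemma sum_FF_sq (hm : ∀ e, 0 < m e) (hs : 0 ≤ s)
    (hlazy : ∀ x, s * ∑ y, cc κ m x y ≤ pw m x / 2) (z : V) (N : ℕ) :
    ∑ t ∈ range N, s * FF κ m ((stepA κ m s ^ t) (h0 m z)) ^ 2 ≤
      2 * (Real.log (∑ x, pw m x) - Real.log (pw m z)) := by
  have h1 : ∑ t ∈ range N, s * FF κ m ((stepA κ m s ^ t) (h0 m z)) ^ 2 ≤
      2 * (Ent m (h0 m z) - Ent m ((stepA κ m s ^ N) (h0 m z))) := by
    induction N with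
    | zero => simp
    | succ N ih =>
      rw [sum_range_succ]
      obtain ⟨a1, a2⟩ := heat_props hm hs hlazy z N
      have b1 := FF_sq_le (κ := κ) hm _ a1 a2
      have b2 := ent_gap hm hs hlazy _ a1
      rw [pow_succ' (stepA κ m s) N, Module.End.mul_apply]
      have := mul_le_mul_of_nonneg_left b1 hs
      linarith
  obtain ⟨a1, a2⟩ := heat_props hm hs hlazy z N
  have h2 := ent_lower hm _ a1 a2
  have h3 : Ent m (h0 m z) = - Real.log (pw m z) := by
    unfold Ent h0
    rw [sum_eq_single z (fun x _ hx => by simp [hx]) (by simp)]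
    have := (pw_pos hm z).ne'
    simp only [if_true, one_div, Real.log_inv]; field_simp
  linarith

lemma sum_pw_log (hm : ∀ e, 0 < m e) :
    ∑ z, pw m z * (Real.log (∑ x, pw m x) - Real.log (pw m z)) ≤
      (∑ x, pw m x) * Real.log (Fintype.card V) := by
  rcases isEmpty_or_nonempty V with hV | hV
  · simp
  set P := ∑ x, pw m x with hP
  have hP0 : 0 < P := sum_pos (fun x _ => pw_pos hm x) univ_nonempty
  have hn : (0 : ℝ) < Fintype.card V := by exact_mod_cast Fintype.card_pos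
  have key : ∀ z, pw m z * (Real.log P - Real.log (pw m z)) ≤
      pw m z * Real.log (Fintype.card V) + P / Fintype.card V - pw m z := by
    intro z
    have hz := pw_pos hm z
    have h1 : Real.log (P / (pw m z * Fintype.card V)) ≤ P / (pw m z * Fintype.card V) - 1 :=
      Real.log_le_sub_one_of_pos (by positivity)
    rw [Real.log_div hP0.ne' (by positivity), Real.log_mul hz.ne' hn.ne'] at h1
    have h2 := mul_le_mul_of_nonneg_left h1 hz.le
    have h3 : pw m z * (P / (pw m z * Fintype.card V)) = P / Fintype.card V := by field_simp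
    nlinarith
  calc _ ≤ ∑ z, (pw m z * Real.log (Fintype.card V) + P / Fintype.card V - pw m z) :=
        sum_le_sum fun z _ => key z
    _ = _ := by
        rw [sum_sub_distrib, sum_add_distrib, ← sum_mul, sum_const, card_univ, nsmul_eq_mul, ← hP]
        field_simp; ring

/-- divergence of a basis field -/
noncomputable def gE (κ m : V × V → ℝ) (e : V × V) : V → ℝ :=
  fun x => m e * κ e * (h0 m e.1 x - h0 m e.2 x)

lemma ip_gE (hm : ∀ e, 0 < m e) (e : V × V) (w : V → ℝ) :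
    ip m (gE κ m e) w = m e * sig κ w e := by
  have h1 := ip_h0 hm w e.1
  have h2 := ip_h0 hm w e.2
  have : ip m (gE κ m e) w = m e * κ e * (ip m w (h0 m e.1) - ip m w (h0 m e.2)) := by
    unfold ip gE
    rw [← sum_sub_distrib, mul_sum]
    exact sum_congr rfl fun x _ => by ring
  rw [this, h1, h2, sig]; ring

lemma pow_gE (hm : ∀ e, 0 < m e) (t : ℕ) (e : V × V) (z : V) :
    (stepA κ m s ^ t) (gE κ m e) z = m e * sig κ ((stepA κ m s ^ t) (h0 m z)) e := by
  rw [← ip_h0 hm ((stepA κ m s ^ t) (gE κ m e)) z, ip_pow_comm hm, ip_gE hm]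

lemma sum_ip_le (hm : ∀ e, 0 < m e) (a b : ℕ) :
    ∑ e, ∑ e', |ip m (gE κ m e) ((stepA κ m s ^ (a + b)) (gE κ m e'))| ≤
      ∑ z, pw m z * ((FF κ m ((stepA κ m s ^ a) (h0 m z)) ^ 2 +
        FF κ m ((stepA κ m s ^ b) (h0 m z)) ^ 2) / 2) := by
  have h1 : ∀ e e', |ip m (gE κ m e) ((stepA κ m s ^ (a + b)) (gE κ m e'))| ≤
      ∑ z, pw m z * ((m e * |sig κ ((stepA κ m s ^ a) (h0 m z)) e|) *
        (m e' * |sig κ ((stepA κ m s ^ b) (h0 m z)) e'|)) := by
    intro e e'
    rw [pow_add, Module.End.mul_apply, ← ip_pow_comm hm]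
    refine (abs_sum_le_sum_abs _ _).trans (le_of_eq (sum_congr rfl fun z _ => ?_))
    rw [pow_gE hm, pow_gE hm, abs_mul, abs_mul, abs_mul, abs_mul, abs_of_pos (pw_pos hm z),
      abs_of_pos (hm e), abs_of_pos (hm e')]
  calc _ ≤ ∑ e, ∑ e', ∑ z, pw m z * ((m e * |sig κ ((stepA κ m s ^ a) (h0 m z)) e|) *
        (m e' * |sig κ ((stepA κ m s ^ b) (h0 m z)) e'|)) :=
        sum_le_sum fun e _ => sum_le_sum fun e' _ => h1 e e'
    _ = ∑ z, pw m z * (FF κ m ((stepA κ m s ^ a) (h0 m z)) *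
          FF κ m ((stepA κ m s ^ b) (h0 m z))) := by
        simp_rw [sum_comm (s := univ) (t := (univ : Finset V)) (f := fun e' z => pw m z *
          ((m _ * |sig κ ((stepA κ m s ^ a) (h0 m z)) _|) *
          (m e' * |sig κ ((stepA κ m s ^ b) (h0 m z)) e'|)))]
        rw [sum_comm]
        refine sum_congr rfl fun z _ => ?_
        rw [FF, FF, sum_mul_sum, mul_sum]
        refine sum_congr rfl fun e _ => ?_
        rw [mul_sum]
    _ ≤ _ := by
        refine sum_le_sum fun z _ => mul_le_mul_of_nonneg_left ?_ (pw_pos hm z).le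
        nlinarith [sq_nonneg (FF κ m ((stepA κ m s ^ a) (h0 m z)) -
          FF κ m ((stepA κ m s ^ b) (h0 m z)))]

lemma ip_sub_right (u w w' : V → ℝ) : ip m u (w - w') = ip m u w - ip m u w' := by
  unfold ip
  rw [← sum_sub_distrib]
  exact sum_congr rfl fun x _ => by simp only [Pi.sub_apply]; ring

lemma ip_smul_right (c : ℝ) (u w : V → ℝ) : ip m u (c • w) = c * ip m u w := by
  unfold ip
  rw [mul_sum]
  exact sum_congr rfl fun x _ => by simp only [Pi.smul_apply, smul_eq_mul]; ring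

lemma telescope (g u w : V → ℝ) (hu : u - stepA κ m s u = s • w) (N : ℕ) :
    ip m g u = ip m g ((stepA κ m s ^ (2 * N)) u) +
      s * ∑ t ∈ range N, (ip m g ((stepA κ m s ^ (t + t)) w) +
        ip m g ((stepA κ m s ^ (t + (t + 1))) w)) := by
  have key : ∀ k, ip m g ((stepA κ m s ^ k) u) = ip m g ((stepA κ m s ^ (k + 1)) u) +
      s * ip m g ((stepA κ m s ^ k) w) := by
    intro k
    have h : (stepA κ m s ^ k) u - (stepA κ m s ^ (k + 1)) u = s • (stepA κ m s ^ k) w := by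
      rw [pow_succ, Module.End.mul_apply, ← map_sub, hu, map_smul]
    have := congrArg (ip m g) h
    rw [ip_sub_right, ip_smul_right] at this
    linarith
  induction N with
  | zero => simp
  | succ N ih =>
    rw [sum_range_succ, ih, key (2 * N), key (2 * N + 1)]
    rw [show N + N = 2 * N by ring, show N + (N + 1) = 2 * N + 1 by ring,
      show 2 * (N + 1) = 2 * N + 1 + 1 by ring]
    ring

lemma energy_tendsto (hm : ∀ e, 0 < m e) (hs : 0 < s)
    (hlazy : ∀ x, s * ∑ y, cc κ m x y ≤ pw m x / 2) (u : V → ℝ) (e : V × V) :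
    Filter.Tendsto (fun t : ℕ => sig κ ((stepA κ m s ^ t) u) e) Filter.atTop (nhds 0) := by
  have h1 : ∀ N, ∑ t ∈ range N, s * ∑ e, m e * (sig κ ((stepA κ m s ^ t) u) e) ^ 2 ≤
      ∑ x, pw m x * u x ^ 2 - ∑ x, pw m x * ((stepA κ m s ^ N) u x) ^ 2 := by
    intro N
    induction N with
    | zero => simp
    | succ N ih =>
      rw [sum_range_succ, pow_succ' (stepA κ m s) N, Module.End.mul_apply]
      have := sq_gap hm hs.le hlazy ((stepA κ m s ^ N) u)
      linarith
  have h2 : Summable (fun t : ℕ => s * m e * (sig κ ((stepA κ m s ^ t) u) e) ^ 2) := by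
    refine summable_of_sum_range_le (c := ∑ x, pw m x * u x ^ 2)
      (fun t => by have := hm e; positivity) fun N => ?_
    have h3 : 0 ≤ ∑ x, pw m x * ((stepA κ m s ^ N) u x) ^ 2 :=
      sum_nonneg fun x _ => mul_nonneg (pw_pos hm x).le (sq_nonneg _)
    refine le_trans (sum_le_sum fun t _ => ?_) ((h1 N).trans (by linarith))
    rw [mul_assoc]
    exact mul_le_mul_of_nonneg_left (single_le_sum (f := fun e => m e *
      (sig κ ((stepA κ m s ^ t) u) e) ^ 2) (fun e _ => mul_nonneg (hm e).le (sq_nonneg _))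
      (mem_univ e)) hs.le
  have h3 := h2.tendsto_atTop_zero
  have hsm : 0 < s * m e := mul_pos hs (hm e)
  have h4 : Filter.Tendsto (fun t : ℕ => (sig κ ((stepA κ m s ^ t) u) e) ^ 2) Filter.atTop
      (nhds 0) := by
    have := h3.const_mul (s * m e)⁻¹
    simp only [mul_zero] at this
    refine this.congr fun t => ?_
    rw [← mul_assoc, inv_mul_cancel₀ hsm.ne', one_mul]
  have h5 := h4.sqrt
  simp only [Real.sqrt_sq_eq_abs, Real.sqrt_zero] at h5
  exact (tendsto_zero_iff_abs_tendsto_zero _).2 h5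

/-- localization of electrical flows -/
theorem localization (hm : ∀ e, 0 < m e) (P : V × V → V → ℝ)
    (hP : ∀ e' w, ∑ e, m e * (sig κ (P e') e * sig κ w e) = m e' * sig κ w e') :
    ∑ e, m e * ∑ e', |sig κ (P e') e| ≤ 8 * Real.log (Fintype.card V) * ∑ e, m e := by
  rcases isEmpty_or_nonempty V with hV | hV
  · simp
  obtain ⟨s, hs, hlazy⟩ : ∃ s : ℝ, 0 < s ∧ ∀ x, s * ∑ y, cc κ m x y ≤ pw m x / 2 := by
    obtain ⟨x0, -, hx0⟩ := exists_min_image univ
      (fun x => pw m x / 2 / (∑ y, cc κ m x y + 1)) univ_nonempty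
    have hpos : ∀ x, 0 < ∑ y, cc κ m x y + 1 := fun x => by
      have : 0 ≤ ∑ y, cc κ m x y := sum_nonneg fun y _ => cc_nonneg hm x y
      linarith
    refine ⟨pw m x0 / 2 / (∑ y, cc κ m x0 y + 1),
      div_pos (by linarith [pw_pos hm x0]) (hpos x0), fun x => ?_⟩
    have h1 := hx0 x (mem_univ x)
    have h2 : pw m x0 / 2 / (∑ y, cc κ m x0 y + 1) * (∑ y, cc κ m x y + 1) ≤ pw m x / 2 :=
      (le_div_iff₀ (hpos x)).1 h1
    have h3 : 0 < pw m x0 / 2 / (∑ y, cc κ m x0 y + 1) :=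
      div_pos (by linarith [pw_pos hm x0]) (hpos x0)
    nlinarith
  have hu : ∀ e', P e' - stepA κ m s (P e') = s • gE κ m e' := by
    intro e'
    funext z
    have h1 := ip_step (κ := κ) (s := s) hm (P e') (h0 m z)
    rw [ip_h0 hm, ip_h0 hm, hP, ← ip_gE hm, ip_h0 hm] at h1
    simp only [Pi.sub_apply, Pi.smul_apply, smul_eq_mul]
    linarith
  have hPsum : ∑ x, pw m x = 2 * ∑ e, m e := by
    have := sum_edge_pw m (fun _ => 1)
    simp only [mul_one] at this
    rw [← this, mul_sum]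
    exact sum_congr rfl fun e _ => by ring
  have main : ∀ N : ℕ, ∑ e, m e * ∑ e', |sig κ (P e') e| ≤
      8 * Real.log (Fintype.card V) * ∑ e, m e +
        ∑ e, ∑ e', m e * |sig κ ((stepA κ m s ^ (2 * N)) (P e')) e| := by
    intro N
    set F : ℕ → V → ℝ := fun t z => FF κ m ((stepA κ m s ^ t) (h0 m z)) with hF
    have h1 : ∀ e e', m e * |sig κ (P e') e| ≤ m e * |sig κ ((stepA κ m s ^ (2 * N)) (P e')) e| +
        s * ∑ t ∈ range N, (|ip m (gE κ m e) ((stepA κ m s ^ (t + t)) (gE κ m e'))| +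
        |ip m (gE κ m e) ((stepA κ m s ^ (t + (t + 1))) (gE κ m e'))|) := by
      intro e e'
      have h := telescope (gE κ m e) (P e') (gE κ m e') (hu e') N
      rw [ip_gE hm, ip_gE hm] at h
      have a1 : m e * |sig κ (P e') e| = |m e * sig κ (P e') e| := by
        rw [abs_mul, abs_of_pos (hm e)]
      rw [a1, h]
      refine (abs_add_le _ _).trans (add_le_add ?_ ?_)
      · rw [abs_mul, abs_of_pos (hm e)]
      · rw [abs_mul, abs_of_pos hs]
        exact mul_le_mul_of_nonneg_left ((abs_sum_le_sum_abs _ _).trans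
          (sum_le_sum fun t _ => abs_add_le _ _)) hs.le
    have h2 : ∑ e, ∑ e', s * ∑ t ∈ range N,
        (|ip m (gE κ m e) ((stepA κ m s ^ (t + t)) (gE κ m e'))| +
        |ip m (gE κ m e) ((stepA κ m s ^ (t + (t + 1))) (gE κ m e'))|) =
        ∑ t ∈ range N, s * (∑ e, ∑ e', |ip m (gE κ m e) ((stepA κ m s ^ (t + t)) (gE κ m e'))| +
        ∑ e, ∑ e', |ip m (gE κ m e) ((stepA κ m s ^ (t + (t + 1))) (gE κ m e'))|) := by
      simp_rw [← mul_sum]
      congr 1
      simp_rw [← sum_add_distrib]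
      rw [sum_comm (s := range N)]
      refine sum_congr rfl fun e _ => ?_
      rw [sum_comm (s := range N)]
    have h3 : ∀ t, s * (∑ e, ∑ e', |ip m (gE κ m e) ((stepA κ m s ^ (t + t)) (gE κ m e'))| +
        ∑ e, ∑ e', |ip m (gE κ m e) ((stepA κ m s ^ (t + (t + 1))) (gE κ m e'))|) ≤
        ∑ z, pw m z * (3 / 2 * (s * F t z ^ 2) + 1 / 2 * (s * F (t + 1) z ^ 2)) := by
      intro t
      have b1 := sum_ip_le (κ := κ) (s := s) hm t t
      have b2 := sum_ip_le (κ := κ) (s := s) hm t (t + 1)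
      refine (mul_le_mul_of_nonneg_left (add_le_add b1 b2) hs.le).trans (le_of_eq ?_)
      rw [← sum_add_distrib, mul_sum]
      exact sum_congr rfl fun z _ => by simp only [hF]; ring
    have h4 : ∀ z, ∑ t ∈ range N, (3 / 2 * (s * F t z ^ 2) + 1 / 2 * (s * F (t + 1) z ^ 2)) ≤
        4 * (Real.log (∑ x, pw m x) - Real.log (pw m z)) := by
      intro z
      have c1 := sum_FF_sq hm hs.le hlazy z N
      have c2 := sum_FF_sq hm hs.le hlazy z (N + 1)
      rw [sum_range_succ'] at c2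
      have c3 : 0 ≤ s * FF κ m ((stepA κ m s ^ 0) (h0 m z)) ^ 2 := by positivity
      have c4 : ∑ t ∈ range N, (3 / 2 * (s * F t z ^ 2) + 1 / 2 * (s * F (t + 1) z ^ 2)) =
          3 / 2 * ∑ t ∈ range N, s * F t z ^ 2 + 1 / 2 * ∑ t ∈ range N, s * F (t + 1) z ^ 2 := by
        rw [sum_add_distrib, mul_sum, mul_sum]
      rw [c4]
      simp only [hF]
      linarith
    have h5 : ∑ t ∈ range N, ∑ z, pw m z * (3 / 2 * (s * F t z ^ 2) +
        1 / 2 * (s * F (t + 1) z ^ 2)) ≤ 8 * Real.log (Fintype.card V) * ∑ e, m e := by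
      rw [sum_comm]
      calc _ ≤ ∑ z, pw m z * (4 * (Real.log (∑ x, pw m x) - Real.log (pw m z))) := by
            refine sum_le_sum fun z _ => ?_
            rw [← mul_sum]
            exact mul_le_mul_of_nonneg_left (h4 z) (pw_pos hm z).le
        _ = 4 * ∑ z, pw m z * (Real.log (∑ x, pw m x) - Real.log (pw m z)) := by
            rw [mul_sum]; exact sum_congr rfl fun z _ => by ring
        _ ≤ 4 * ((∑ x, pw m x) * Real.log (Fintype.card V)) := by
            have := sum_pw_log hm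
            linarith
        _ = _ := by rw [hPsum]; ring
    calc _ = ∑ e, ∑ e', m e * |sig κ (P e') e| := by simp_rw [mul_sum]
      _ ≤ ∑ e, ∑ e', (m e * |sig κ ((stepA κ m s ^ (2 * N)) (P e')) e| +
        s * ∑ t ∈ range N, (|ip m (gE κ m e) ((stepA κ m s ^ (t + t)) (gE κ m e'))| +
        |ip m (gE κ m e) ((stepA κ m s ^ (t + (t + 1))) (gE κ m e'))|)) :=
          sum_le_sum fun e _ => sum_le_sum fun e' _ => h1 e e'
      _ ≤ _ := by
          simp_rw [sum_add_distrib]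
          simp_rw [sum_add_distrib] at h2
          rw [h2]
          have := (sum_le_sum fun t (_ : t ∈ range N) => h3 t).trans h5
          linarith
  have hlim : Filter.Tendsto (fun N : ℕ => 8 * Real.log (Fintype.card V) * ∑ e, m e +
      ∑ e, ∑ e', m e * |sig κ ((stepA κ m s ^ (2 * N)) (P e')) e|) Filter.atTop
      (nhds (8 * Real.log (Fintype.card V) * ∑ e, m e + ∑ e : V × V, ∑ e' : V × V, m e * |0|)) := by
    refine Filter.Tendsto.const_add _ (tendsto_finsetSum _ fun e _ =>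
      tendsto_finsetSum _ fun e' _ => Filter.Tendsto.const_mul _ (Filter.Tendsto.abs ?_))
    exact (energy_tendsto hm hs hlazy (P e') e).comp
      (Filter.tendsto_id.const_mul_atTop' (by norm_num))
  simp only [abs_zero, mul_zero, sum_const_zero, add_zero] at hlim
  exact ge_of_tendsto' hlim main

end Crest.Agent.H7.Dr
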