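import Crest.Agent.H7.DrA

set_option autoImplicit false
set_option linter.unusedSectionVars false
set_option linter.unusedVariables false

open Finset

namespace Crest.Agent.H7.Dr

lemma clm_eq_sum {E : Type*} [Fintype E] [DecidableEq E] (f : (E → ℝ) →L[ℝ] ℝ) (y : E → ℝ) :
    f y = ∑ e, y e * f (Pi.single e 1) := by
  conv_lhs => rw [← Finset.univ_sum_single y]
  rw [map_sum]
  refine sum_congr rfl fun e _ => ?_
  have : (Pi.single e (y e) : E → ℝ) = y e • (Pi.single e (1 : ℝ) : E → ℝ) := by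
    funext x
    by_cases hx : x = e
    · subst hx; simp
    · simp [hx]
  rw [this, map_smul, smul_eq_mul]

lemma minimax {E : Type*} [Fintype E] [Nonempty E] {X : Type*} [AddCommGroup X] [Module ℝ X]
    (S : Set X) (φ : E → X → ℝ) (hφ : ∀ e, ConvexOn ℝ S (φ e))
    (h0 : ∀ e, ∀ x ∈ S, 0 ≤ φ e x)
    (h : ∀ m : E → ℝ, (∀ e, 0 < m e) → ∃ x ∈ S, ∑ e, m e * φ e x ≤ 2 * ∑ e, m e) :
    ∃ x ∈ S, ∀ e, φ e x ≤ 3 := by
  classical
  by_contra hc
  push Not at hc
  have hS : Convex ℝ S := (hφ (Classical.arbitrary E)).1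
  set O : Set (E → ℝ) := {y | ∀ e, y e < 3} with hO
  set U : Set (E → ℝ) := {y | ∃ x ∈ S, ∀ e, φ e x ≤ y e} with hU
  have hOo : IsOpen O := by
    have : O = ⋂ e, {y : E → ℝ | y e < 3} := by ext y; simp [hO]
    rw [this]
    exact isOpen_iInter_of_finite fun e => isOpen_lt (continuous_apply e) continuous_const
  have hOc : Convex ℝ O := by
    intro y hy z hz a b ha hb hab e
    have h1 := hy e
    have h2 := hz e
    simp only [Pi.add_apply, Pi.smul_apply, smul_eq_mul]
    rcases ha.eq_or_lt with ha0 | ha0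
    · subst ha0
      have : b = 1 := by linarith
      subst this; simpa using h2
    · nlinarith
  have hUc : Convex ℝ U := by
    rintro y ⟨x, hx, hy⟩ z ⟨x', hx', hz⟩ a b ha hb hab
    refine ⟨a • x + b • x', hS hx hx' ha hb hab, fun e => ?_⟩
    have := (hφ e).2 hx hx' ha hb hab
    simp only [Pi.add_apply, Pi.smul_apply, smul_eq_mul] at this ⊢
    nlinarith [hy e, hz e]
  have hdis : Disjoint O U := by
    rw [Set.disjoint_left]
    rintro y hy ⟨x, hx, hxy⟩
    obtain ⟨e, he⟩ := hc x hx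
    linarith [hy e, hxy e]
  obtain ⟨f, u, hf1, hf2⟩ := geometric_hahn_banach_open hOc hOo hUc hdis
  set w : E → ℝ := fun e => f (Pi.single e 1) with hw
  have hu0 : 0 < u := by
    have := hf1 0 (fun e => by simp)
    simpa using this
  have hw0 : ∀ e, 0 ≤ w e := by
    intro e
    by_contra hneg
    push Not at hneg
    have h1 := hf1 ((u / w e) • (Pi.single e (1 : ℝ) : E → ℝ)) (fun e' => by
      have : u / w e < 0 := div_neg_of_pos_of_neg hu0 hneg
      by_cases he : e' = e
      · subst he; simp only [Pi.smul_apply, Pi.single_eq_same, smul_eq_mul]; linarith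
      · simp [he])
    rw [map_smul, smul_eq_mul] at h1
    have h2 : u / w e * w e = u := div_mul_cancel₀ _ hneg.ne
    exact absurd h1 (by change ¬ (u / w e * w e < u); rw [h2]; exact lt_irrefl _)
  have h25 : 5 / 2 * ∑ e, w e < u := by
    have := hf1 (fun _ => 5 / 2) (fun e => by norm_num)
    rw [clm_eq_sum, ← mul_sum] at this
    exact this
  have hN : (0 : ℝ) < Fintype.card E := by exact_mod_cast Fintype.card_pos
  obtain ⟨x, hx, hxm⟩ := h (fun e => w e + u / (20 * Fintype.card E))
    (fun e => add_pos_of_nonneg_of_pos (hw0 e) (by positivity))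
  have h3 := hf2 (fun e => φ e x) ⟨x, hx, fun e => le_rfl⟩
  rw [clm_eq_sum] at h3
  have h4 : ∑ e, φ e x * w e ≤ ∑ e, (w e + u / (20 * Fintype.card E)) * φ e x := by
    refine sum_le_sum fun e _ => ?_
    have : 0 ≤ u / (20 * Fintype.card E) * φ e x := mul_nonneg (by positivity) (h0 e x hx)
    nlinarith
  have h5 : ∑ e : E, (w e + u / (20 * Fintype.card E)) = ∑ e, w e + u / 20 := by
    rw [sum_add_distrib, sum_const, card_univ, nsmul_eq_mul]
    field_simp
  rw [h5] at hxm
  have h6 : ∑ e, φ e x * f (Pi.single e 1) = ∑ e, φ e x * w e := rfl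
  linarith

variable {V : Type*} [Fintype V] [DecidableEq V]

/-- potential of the projected field -/
noncomputable def prj (P : V × V → V → ℝ) (f : V × V → ℝ) : V → ℝ :=
  fun x => ∑ e', f e' * P e' x

lemma sig_prj (κ : V × V → ℝ) (P : V × V → V → ℝ) (f : V × V → ℝ) (e : V × V) :
    sig κ (prj P f) e = ∑ e', f e' * sig κ (P e') e := by
  simp only [sig, prj]
  rw [← sum_sub_distrib, mul_sum]
  exact sum_congr rfl fun e' _ => by ring

lemma exists_orth (κ m : V × V → ℝ) (hm : ∀ e, 0 < m e) (f : V × V → ℝ) :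
    ∃ u : V → ℝ, ∀ w, ∑ e, m e * ((f e - sig κ u e) * sig κ w e) = 0 := by
  let T : (V → ℝ) →ₗ[ℝ] EuclideanSpace ℝ (V × V) :=
    { toFun := fun u => WithLp.toLp 2 (fun e => √(m e) * sig κ u e)
      map_add' := fun u w => by
        ext e; simp only [sig, Pi.add_apply, PiLp.add_apply]; ring
      map_smul' := fun c u => by
        ext e; simp only [sig, Pi.smul_apply, PiLp.smul_apply, smul_eq_mul, RingHom.id_apply]; ring }
  obtain ⟨y, ⟨u, rfl⟩, z, hz, hyz⟩ := (LinearMap.range T).exists_add_mem_mem_orthogonal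
    (WithLp.toLp 2 (fun e => √(m e) * f e))
  refine ⟨u, fun w => ?_⟩
  have h1 := (Submodule.mem_orthogonal _ _).1 hz (T w) ⟨w, rfl⟩
  have h2 : ∀ e, z e = √(m e) * f e - √(m e) * sig κ u e := by
    intro e
    have := congrArg (fun v : EuclideanSpace ℝ (V × V) => v e) hyz
    simp only [PiLp.add_apply] at this
    change √(m e) * f e = √(m e) * sig κ u e + z e at this
    linarith
  rw [PiLp.inner_apply] at h1
  rw [← h1]
  refine sum_congr rfl fun e _ => ?_
  have a1 : √(m e) * √(m e) = m e := Real.mul_self_sqrt (hm e).le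
  simp only [RCLike.inner_apply, conj_trivial]
  rw [h2]
  change _ = (√(m e) * f e - √(m e) * sig κ u e) * (√(m e) * sig κ w e)
  linear_combination (-((f e - sig κ u e) * sig κ w e)) * a1

lemma exists_proj_m (κ m : V × V → ℝ) (hm : ∀ e, 0 < m e) :
    ∃ P : V × V → V → ℝ, (∀ u e, sig κ (prj P (sig κ u)) e = sig κ u e) ∧
      (∀ f : V × V → ℝ, ∑ e, m e * (f e - sig κ (prj P f) e) ^ 2 ≤ ∑ e, m e * f e ^ 2) ∧
      ∑ e, m e * ∑ e', |sig κ (P e') e| ≤ 8 * Real.log (Fintype.card V) * ∑ e, m e := by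
  choose P hP using fun e' : V × V => exists_orth κ m hm (Pi.single e' 1)
  have hP' : ∀ e' w, ∑ e, m e * (sig κ (P e') e * sig κ w e) = m e' * sig κ w e' := by
    intro e' w
    have h1 := hP e' w
    have h2 : ∑ e, m e * (((Pi.single e' (1 : ℝ) : V × V → ℝ) e - sig κ (P e') e) * sig κ w e) =
        ∑ e, m e * ((Pi.single e' (1 : ℝ) : V × V → ℝ) e * sig κ w e) -
          ∑ e, m e * (sig κ (P e') e * sig κ w e) := by
      rw [← sum_sub_distrib]; exact sum_congr rfl fun e _ => by ring
    have h3 : ∑ e, m e * ((Pi.single e' (1 : ℝ) : V × V → ℝ) e * sig κ w e) =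
        m e' * sig κ w e' := by
      rw [sum_eq_single e' (fun e _ he => by simp [he]) (by simp)]; simp
    linarith
  have horth : ∀ f w, ∑ e, m e * ((f e - sig κ (prj P f) e) * sig κ w e) = 0 := by
    intro f w
    have h1 : ∑ e, m e * (sig κ (prj P f) e * sig κ w e) = ∑ e, m e * (f e * sig κ w e) := by
      calc _ = ∑ e, ∑ e', f e' * (m e * (sig κ (P e') e * sig κ w e)) := by
            refine sum_congr rfl fun e _ => ?_
            rw [sig_prj, sum_mul, mul_sum]
            exact sum_congr rfl fun e' _ => by ring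
        _ = ∑ e', f e' * (m e' * sig κ w e') := by
            rw [sum_comm]
            refine sum_congr rfl fun e' _ => ?_
            rw [← mul_sum, hP']
        _ = _ := sum_congr rfl fun e _ => by ring
    have h2 : ∑ e, m e * ((f e - sig κ (prj P f) e) * sig κ w e) =
        ∑ e, m e * (f e * sig κ w e) - ∑ e, m e * (sig κ (prj P f) e * sig κ w e) := by
      rw [← sum_sub_distrib]; exact sum_congr rfl fun e _ => by ring
    linarith
  refine ⟨P, fun u e => ?_, fun f => ?_, localization hm P hP'⟩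
  · have h1 := horth (sig κ u) (u - prj P (sig κ u))
    have h2 : ∀ e, sig κ (u - prj P (sig κ u)) e = sig κ u e - sig κ (prj P (sig κ u)) e := by
      intro e; simp only [sig, Pi.sub_apply]; ring
    simp only [h2] at h1
    have h3 := (sum_eq_zero_iff_of_nonneg (fun e _ => mul_nonneg (hm e).le
      (mul_self_nonneg (sig κ u e - sig κ (prj P (sig κ u)) e)))).1 h1 e (mem_univ e)
    have h4 := (mul_eq_zero.1 h3).resolve_left (hm e).ne'
    have h5 := mul_self_eq_zero.1 h4
    linarith
  · have h1 := horth f (prj P f)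
    have h2 : ∑ e, m e * f e ^ 2 = ∑ e, m e * (f e - sig κ (prj P f) e) ^ 2 +
        2 * ∑ e, m e * ((f e - sig κ (prj P f) e) * sig κ (prj P f) e) +
        ∑ e, m e * (sig κ (prj P f) e) ^ 2 := by
      rw [mul_sum, ← sum_add_distrib, ← sum_add_distrib]
      exact sum_congr rfl fun e _ => by ring
    have h3 : 0 ≤ ∑ e, m e * (sig κ (prj P f) e) ^ 2 :=
      sum_nonneg fun e _ => mul_nonneg (hm e).le (sq_nonneg _)
    linarith

lemma sig_comb (κ : V × V → ℝ) (P Q : V × V → V → ℝ) (a b : ℝ) (e' e : V × V) :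
    sig κ ((a • P + b • Q) e') e = a * sig κ (P e') e + b * sig κ (Q e') e := by
  simp only [sig, Pi.add_apply, Pi.smul_apply, smul_eq_mul]; ring

lemma sig_prj_comb (κ : V × V → ℝ) (P Q : V × V → V → ℝ) (a b : ℝ) (f : V × V → ℝ)
    (e : V × V) :
    sig κ (prj (a • P + b • Q) f) e = a * sig κ (prj P f) e + b * sig κ (prj Q f) e := by
  simp only [sig_prj, sig_comb, mul_sum]
  rw [← sum_add_distrib]
  exact sum_congr rfl fun e' _ => by ring

theorem exists_proj (hn : 2 ≤ Fintype.card V) (κ : V × V → ℝ) {I : Type*} [Fintype I]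
    (f : I → V × V → ℝ) (w : I → ℝ) (hw : ∀ i, 0 ≤ w i) (Cb : ℝ) (hCb : 0 < Cb)
    (hf : ∀ e, ∑ i, w i * f i e ^ 2 ≤ Cb) :
    ∃ P : V × V → V → ℝ, (∀ u e, sig κ (prj P (sig κ u)) e = sig κ u e) ∧
      (∀ e, ∑ e', |sig κ (P e') e| ≤ 24 * Real.log (Fintype.card V)) ∧
      (∀ e, ∑ i, w i * (f i e - sig κ (prj P (f i)) e) ^ 2 ≤ 3 * Cb) := by
  have hV : Nonempty V := Fintype.card_pos_iff.1 (by omega)
  have hL : 0 < Real.log (Fintype.card V) :=
    Real.log_pos (by exact_mod_cast (by omega : 1 < Fintype.card V))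
  set L := Real.log (Fintype.card V) with hLdef
  set S : Set (V × V → V → ℝ) := {P | ∀ u e, sig κ (prj P (sig κ u)) e = sig κ u e} with hS
  have hSc : Convex ℝ S := by
    intro P hP Q hQ a b ha hb hab u e
    rw [sig_prj_comb, hP u e, hQ u e, ← add_mul, hab, one_mul]
  let φ : V × V → (V × V → V → ℝ) → ℝ := fun e P =>
    (∑ e', |sig κ (P e') e|) / (8 * L) +
      (∑ i, w i * (f i e - sig κ (prj P (f i)) e) ^ 2) / Cb
  have hA : ∀ e (P : V × V → V → ℝ), 0 ≤ ∑ e', |sig κ (P e') e| :=
    fun e P => sum_nonneg fun _ _ => abs_nonneg _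
  have hB : ∀ e P, 0 ≤ ∑ i, w i * (f i e - sig κ (prj P (f i)) e) ^ 2 :=
    fun e P => sum_nonneg fun i _ => mul_nonneg (hw i) (sq_nonneg _)
  obtain ⟨P, hP, hφ⟩ := minimax S φ (fun e => ⟨hSc, fun P hP Q hQ a b ha hb hab => by
      have h1 : ∑ e', |sig κ ((a • P + b • Q) e') e| ≤
          a * ∑ e', |sig κ (P e') e| + b * ∑ e', |sig κ (Q e') e| := by
        rw [mul_sum, mul_sum, ← sum_add_distrib]
        refine sum_le_sum fun e' _ => ?_
        rw [sig_comb]
        refine (abs_add_le _ _).trans (le_of_eq ?_)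
        rw [abs_mul, abs_mul, abs_of_nonneg ha, abs_of_nonneg hb]
      have h2 : ∑ i, w i * (f i e - sig κ (prj (a • P + b • Q) (f i)) e) ^ 2 ≤
          a * ∑ i, w i * (f i e - sig κ (prj P (f i)) e) ^ 2 +
          b * ∑ i, w i * (f i e - sig κ (prj Q (f i)) e) ^ 2 := by
        rw [mul_sum, mul_sum, ← sum_add_distrib]
        refine sum_le_sum fun i _ => ?_
        rw [sig_prj_comb]
        generalize sig κ (prj P (f i)) e = x
        generalize sig κ (prj Q (f i)) e = y
        have hb' : b = 1 - a := by linarith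
        subst hb'
        have : (f i e - (a * x + (1 - a) * y)) ^ 2 ≤
            a * (f i e - x) ^ 2 + (1 - a) * (f i e - y) ^ 2 := by
          nlinarith [mul_nonneg (mul_nonneg ha hb) (sq_nonneg (x - y))]
        nlinarith [mul_le_mul_of_nonneg_left this (hw i)]
      simp only [φ, smul_eq_mul]
      have h3 := div_le_div_of_nonneg_right h1 (by positivity : 0 ≤ 8 * L)
      have h4 := div_le_div_of_nonneg_right h2 hCb.le
      refine (add_le_add h3 h4).trans (le_of_eq ?_)
      ring⟩)
    (fun e P _ => add_nonneg (div_nonneg (hA e P) (by positivity)) (div_nonneg (hB e P) hCb.le))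
    (fun m hm => by
      obtain ⟨P, h1, h2, h3⟩ := exists_proj_m κ m hm
      refine ⟨P, h1, ?_⟩
      have h4 : ∑ e, m e * ∑ i, w i * (f i e - sig κ (prj P (f i)) e) ^ 2 ≤ Cb * ∑ e, m e := by
        calc _ = ∑ i, w i * ∑ e, m e * (f i e - sig κ (prj P (f i)) e) ^ 2 := by
              simp_rw [mul_sum]
              rw [sum_comm]
              exact sum_congr rfl fun i _ => sum_congr rfl fun e _ => by ring
          _ ≤ ∑ i, w i * ∑ e, m e * f i e ^ 2 :=
              sum_le_sum fun i _ => mul_le_mul_of_nonneg_left (h2 (f i)) (hw i)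
          _ = ∑ e, m e * ∑ i, w i * f i e ^ 2 := by
              simp_rw [mul_sum]
              rw [sum_comm]
              exact sum_congr rfl fun i _ => sum_congr rfl fun e _ => by ring
          _ ≤ ∑ e, m e * Cb := sum_le_sum fun e _ => mul_le_mul_of_nonneg_left (hf e) (hm e).le
          _ = _ := by rw [← sum_mul, mul_comm]
      have h5 : ∑ e, m e * φ e P = (∑ e, m e * ∑ e', |sig κ (P e') e|) / (8 * L) +
          (∑ e, m e * ∑ i, w i * (f i e - sig κ (prj P (f i)) e) ^ 2) / Cb := by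
        rw [sum_div, sum_div, ← sum_add_distrib]
        exact sum_congr rfl fun e _ => by simp only [φ]; ring
      rw [h5]
      have h6 : (∑ e, m e * ∑ e', |sig κ (P e') e|) / (8 * L) ≤ ∑ e, m e := by
        rw [div_le_iff₀ (by positivity)]; linarith
      have h7 : (∑ e, m e * ∑ i, w i * (f i e - sig κ (prj P (f i)) e) ^ 2) / Cb ≤ ∑ e, m e := by
        rw [div_le_iff₀ hCb]; linarith
      linarith)
  refine ⟨P, hP, fun e => ?_, fun e => ?_⟩
  · have h1 := hφ e
    have h2 := div_nonneg (hB e P) hCb.le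
    have h3 : (∑ e', |sig κ (P e') e|) / (8 * L) ≤ 3 := by simp only [φ] at h1; linarith
    rw [div_le_iff₀ (by positivity)] at h3
    linarith
  · have h1 := hφ e
    have h2 := div_nonneg (hA e P) (by positivity : 0 ≤ 8 * L)
    have h3 : (∑ i, w i * (f i e - sig κ (prj P (f i)) e) ^ 2) / Cb ≤ 3 := by
      simp only [φ] at h1; linarith
    rwa [div_le_iff₀ hCb] at h3

end Crest.Agent.H7.Dr
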