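import Mathlib

set_option autoImplicit false
set_option linter.unusedSectionVars false
set_option linter.unusedVariables false

open Finset

namespace Crest.Agent.H7.Dr

/-! ### real inequalities -/

lemma abs_rpow_eq_sq (a p : ℝ) : |a| ^ p = (a ^ 2) ^ (p / 2) := by
  rw [← sq_abs, ← Real.rpow_natCast, ← Real.rpow_mul (abs_nonneg a)]
  congr 1; push_cast; ring

lemma mid_rpow_le {p : ℝ} (hp : 1 ≤ p) {s t : ℝ} (hs : 0 ≤ s) (ht : 0 ≤ t) :
    ((s + t) / 2) ^ p ≤ (s ^ p + t ^ p) / 2 := by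
  have := (convexOn_rpow hp).2 (Set.mem_Ici.2 hs) (Set.mem_Ici.2 ht)
    (by norm_num : (0 : ℝ) ≤ 1 / 2) (by norm_num : (0 : ℝ) ≤ 1 / 2) (by norm_num)
  simp only [smul_eq_mul] at this
  rw [show (s + t) / 2 = 1 / 2 * s + 1 / 2 * t by ring]
  linarith

lemma le_mid_rpow {p : ℝ} (hp0 : 0 ≤ p) (hp : p ≤ 1) {s t : ℝ} (hs : 0 ≤ s) (ht : 0 ≤ t) :
    (s ^ p + t ^ p) / 2 ≤ ((s + t) / 2) ^ p := by
  have := (Real.concaveOn_rpow hp0 hp).2 (Set.mem_Ici.2 hs) (Set.mem_Ici.2 ht)
    (by norm_num : (0 : ℝ) ≤ 1 / 2) (by norm_num : (0 : ℝ) ≤ 1 / 2) (by norm_num)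
  simp only [smul_eq_mul] at this
  rw [show (s + t) / 2 = 1 / 2 * s + 1 / 2 * t by ring]
  linarith

lemma I1 {p : ℝ} (hp : 1 ≤ p) (a y : ℝ) : |a| ^ p ≤ (|a + y| ^ p + |a - y| ^ p) / 2 := by
  refine le_trans (Real.rpow_le_rpow (abs_nonneg _) ?_ (by linarith))
    (mid_rpow_le hp (abs_nonneg _) (abs_nonneg _))
  have := abs_add_le (a + y) (a - y)
  rw [show a + y + (a - y) = 2 * a by ring, abs_mul, abs_two] at this
  linarith

lemma I1' {p : ℝ} (hp : 1 ≤ p) (a y : ℝ) : |y| ^ p ≤ (|a + y| ^ p + |a - y| ^ p) / 2 := by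
  have := I1 hp y a
  rwa [add_comm y a, abs_sub_comm y a] at this

lemma I2a {p : ℝ} (hp0 : 0 ≤ p) (hp : p ≤ 2) (a y : ℝ) :
    (|a + y| ^ p + |a - y| ^ p) / 2 ≤ (a ^ 2 + y ^ 2) ^ (p / 2) := by
  rw [abs_rpow_eq_sq, abs_rpow_eq_sq]
  have := le_mid_rpow (p := p / 2) (by linarith) (by linarith) (sq_nonneg (a + y))
    (sq_nonneg (a - y))
  rwa [show ((a + y) ^ 2 + (a - y) ^ 2) / 2 = a ^ 2 + y ^ 2 by ring] at this

lemma I2 {p : ℝ} (hp0 : 0 ≤ p) (hp : p ≤ 2) (a y : ℝ) :
    (|a + y| ^ p + |a - y| ^ p) / 2 ≤ |a| ^ p + |y| ^ p := by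
  refine (I2a hp0 hp a y).trans ?_
  rw [abs_rpow_eq_sq, abs_rpow_eq_sq]
  exact Real.rpow_add_le_add_rpow (sq_nonneg _) (sq_nonneg _) (by linarith) (by linarith)

lemma I3a {p : ℝ} (hp : 2 ≤ p) (a y : ℝ) :
    (a ^ 2 + y ^ 2) ^ (p / 2) ≤ (|a + y| ^ p + |a - y| ^ p) / 2 := by
  rw [abs_rpow_eq_sq, abs_rpow_eq_sq]
  have := mid_rpow_le (p := p / 2) (by linarith) (sq_nonneg (a + y)) (sq_nonneg (a - y))
  rwa [show ((a + y) ^ 2 + (a - y) ^ 2) / 2 = a ^ 2 + y ^ 2 by ring] at this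

lemma I3 {p : ℝ} (hp : 2 ≤ p) (a y : ℝ) :
    |a| ^ p + |y| ^ p ≤ (|a + y| ^ p + |a - y| ^ p) / 2 := by
  refine le_trans ?_ (I3a hp a y)
  rw [abs_rpow_eq_sq, abs_rpow_eq_sq]
  exact Real.add_rpow_le_rpow_add (sq_nonneg _) (sq_nonneg _) (by linarith)

lemma I5 {p δ : ℝ} (hp : 0 ≤ p) (hδ : 0 < δ) (a b : ℝ) :
    |a + b| ^ p ≤ (1 + δ) ^ p * |a| ^ p + (1 + 1 / δ) ^ p * |b| ^ p := by
  have h1 : 0 ≤ (1 + δ) ^ p * |a| ^ p := by positivity
  have h2 : 0 ≤ (1 + 1 / δ) ^ p * |b| ^ p := by positivity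
  have h3 := abs_add_le a b
  rcases le_total |b| (δ * |a|) with h | h
  · have : |a + b| ^ p ≤ ((1 + δ) * |a|) ^ p :=
      Real.rpow_le_rpow (abs_nonneg _) (by linarith) hp
    rw [Real.mul_rpow (by positivity) (abs_nonneg _)] at this
    linarith
  · have h4 : |a| ≤ 1 / δ * |b| := by
      rw [one_div, ← div_eq_inv_mul, le_div_iff₀ hδ]; linarith
    have : |a + b| ^ p ≤ ((1 + 1 / δ) * |b|) ^ p :=
      Real.rpow_le_rpow (abs_nonneg _) (by linarith) hp
    rw [Real.mul_rpow (by positivity) (abs_nonneg _)] at this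
    linarith

lemma exp_sub_one_le {x c : ℝ} (hx : 0 ≤ x) (hxc : x ≤ c) :
    Real.exp x - 1 ≤ x * Real.exp c := by
  have h1 := Real.add_one_le_exp (-x)
  have h2 : Real.exp (-x) * Real.exp x = 1 := by rw [← Real.exp_add]; simp
  have h3 : Real.exp x ≤ Real.exp c := Real.exp_le_exp.2 hxc
  have h4 := Real.exp_pos x
  nlinarith [mul_le_mul_of_nonneg_right h1 h4.le, mul_le_mul_of_nonneg_left h3 hx]

lemma two_point {p t : ℝ} (hp : 0 < p) (ht : |t| ≤ 1) :
    (|1 + t| ^ p + |1 - t| ^ p) / 2 ≤ 1 + (p ^ 2 / 2 * Real.exp (p ^ 2 / 2)) * t ^ 2 := by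
  obtain ⟨h1, h2⟩ := abs_le.1 ht
  have a1 : |1 + t| ^ p ≤ Real.exp (p * t) := by
    rw [abs_of_nonneg (by linarith), mul_comm, Real.exp_mul]
    exact Real.rpow_le_rpow (by linarith) (by linarith [Real.add_one_le_exp t]) hp.le
  have a2 : |1 - t| ^ p ≤ Real.exp (-(p * t)) := by
    rw [abs_of_nonneg (by linarith), show -(p * t) = (-t) * p by ring, Real.exp_mul]
    exact Real.rpow_le_rpow (by linarith) (by linarith [Real.add_one_le_exp (-t)]) hp.le
  have a3 := Real.cosh_le_exp_half_sq (p * t)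
  rw [Real.cosh_eq] at a3
  have ht2 : t ^ 2 ≤ 1 := by nlinarith
  have a4 := exp_sub_one_le (x := (p * t) ^ 2 / 2) (c := p ^ 2 / 2) (by positivity)
    (by rw [mul_pow]; nlinarith [sq_nonneg p])
  nlinarith

lemma rpow_sub_two_le {p x : ℝ} (hp : 2 ≤ p) (hx : 0 ≤ x) : x ^ (p - 2) ≤ 1 + x ^ p := by
  rcases le_total x 1 with h | h
  · have := Real.rpow_le_one hx h (by linarith : 0 ≤ p - 2)
    have : 0 ≤ x ^ p := by positivity
    linarith
  · have := Real.rpow_le_rpow_of_exponent_le h (by linarith : p - 2 ≤ p)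
    linarith

lemma abs_rpow_split {p : ℝ} (hp : 2 ≤ p) (x : ℝ) : |x| ^ p = x ^ 2 * |x| ^ (p - 2) := by
  rw [← sq_abs, ← Real.rpow_natCast, ← Real.rpow_add' (abs_nonneg x) (by push_cast; linarith)]
  congr 1; push_cast; ring

lemma I4 {p δ : ℝ} (hp : 2 ≤ p) (hδ : 0 < δ) : ∃ C : ℝ, 0 ≤ C ∧ ∀ a y : ℝ,
    (|a + y| ^ p + |a - y| ^ p) / 2 - |a| ^ p ≤
      (1 + δ) ^ p * |y| ^ p + C * y ^ 2 * (1 + |a| ^ p) := by
  set C1 := p ^ 2 / 2 * Real.exp (p ^ 2 / 2) with hC1
  set C2 := 2 ^ p * (1 / δ) ^ (p - 2) with hC2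
  have hC10 : 0 ≤ C1 := by positivity
  have hC20 : 0 ≤ C2 := by positivity
  refine ⟨C1 + C2, by positivity, fun a y => ?_⟩
  have hap : 0 ≤ |a| ^ p := by positivity
  have hyp : 0 ≤ (1 + δ) ^ p * |y| ^ p := by positivity
  have hb1 : |a + y| ≤ |a| + |y| := abs_add_le a y
  have hb2 : |a - y| ≤ |a| + |y| := abs_sub a y
  have hr := rpow_sub_two_le hp (abs_nonneg a)
  have hy2 : 0 ≤ y ^ 2 * (1 + |a| ^ p) := by positivity
  rcases le_total |a| (δ * |y|) with h | h
  · have c1 : |a + y| ^ p ≤ ((1 + δ) * |y|) ^ p :=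
      Real.rpow_le_rpow (abs_nonneg _) (by linarith) (by linarith)
    have c2 : |a - y| ^ p ≤ ((1 + δ) * |y|) ^ p :=
      Real.rpow_le_rpow (abs_nonneg _) (by linarith) (by linarith)
    rw [Real.mul_rpow (by positivity) (abs_nonneg _)] at c1 c2
    nlinarith [mul_nonneg (add_nonneg hC10 hC20) hy2]
  · rcases le_total |a| |y| with h' | h'
    · have c1 : |a + y| ^ p ≤ (2 * |y|) ^ p :=
        Real.rpow_le_rpow (abs_nonneg _) (by linarith) (by linarith)
      have c2 : |a - y| ^ p ≤ (2 * |y|) ^ p :=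
        Real.rpow_le_rpow (abs_nonneg _) (by linarith) (by linarith)
      rw [Real.mul_rpow (by positivity) (abs_nonneg _), abs_rpow_split hp y] at c1 c2
      have h4 : |y| ≤ 1 / δ * |a| := by
        rw [one_div, ← div_eq_inv_mul, le_div_iff₀ hδ]; linarith
      have c3 : |y| ^ (p - 2) ≤ (1 / δ) ^ (p - 2) * (1 + |a| ^ p) := by
        calc _ ≤ (1 / δ * |a|) ^ (p - 2) :=
              Real.rpow_le_rpow (abs_nonneg _) h4 (by linarith)
          _ = (1 / δ) ^ (p - 2) * |a| ^ (p - 2) :=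
              Real.mul_rpow (by positivity) (abs_nonneg _)
          _ ≤ _ := mul_le_mul_of_nonneg_left hr (by positivity)
      have c4 : 2 ^ p * (y ^ 2 * |y| ^ (p - 2)) ≤ C2 * (y ^ 2 * (1 + |a| ^ p)) := by
        have := mul_le_mul_of_nonneg_left c3 (by positivity : 0 ≤ 2 ^ p * y ^ 2)
        rw [hC2]; linarith
      nlinarith [mul_nonneg hC10 hy2]
    · rcases eq_or_ne a 0 with ha | ha
      · subst ha
        have hy : y = 0 := by simpa using h'
        subst hy
        simp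
        positivity
      · have hapos : 0 < |a| := abs_pos.2 ha
        have ht : |y / a| ≤ 1 := by rw [abs_div, div_le_one hapos]; exact h'
        have d1 := two_point (p := p) (by linarith) ht
        have e1 : |a + y| ^ p = |a| ^ p * |1 + y / a| ^ p := by
          rw [← Real.mul_rpow (abs_nonneg _) (abs_nonneg _), ← abs_mul]
          congr 2; field_simp
        have e2 : |a - y| ^ p = |a| ^ p * |1 - y / a| ^ p := by
          rw [← Real.mul_rpow (abs_nonneg _) (abs_nonneg _), ← abs_mul]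
          congr 2; field_simp
        have e3 : |a| ^ p * (y / a) ^ 2 = y ^ 2 * |a| ^ (p - 2) := by
          rw [abs_rpow_split hp a]; field_simp
        have d2 := mul_le_mul_of_nonneg_left d1 hap
        have d3 : y ^ 2 * |a| ^ (p - 2) ≤ y ^ 2 * (1 + |a| ^ p) :=
          mul_le_mul_of_nonneg_left hr (sq_nonneg _)
        have d4 : |a| ^ p * (C1 * (y / a) ^ 2) ≤ C1 * (y ^ 2 * (1 + |a| ^ p)) := by
          have := mul_le_mul_of_nonneg_left d3 hC10
          rw [← e3] at this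
          linarith
        rw [e1, e2]
        nlinarith [mul_nonneg hC20 hy2]

lemma rpow_le_exp_half {p x : ℝ} (hp : 0 < p) (hx : 0 ≤ x) :
    x ^ p ≤ (2 * p) ^ p * Real.exp (x / 2) := by
  have h1 : x ≤ 2 * p * Real.exp (x / (2 * p)) := by
    have := Real.add_one_le_exp (x / (2 * p))
    have h2 : 2 * p * (x / (2 * p)) = x := by field_simp
    nlinarith
  calc x ^ p ≤ (2 * p * Real.exp (x / (2 * p))) ^ p := Real.rpow_le_rpow hx h1 hp.le
    _ = _ := by
      rw [Real.mul_rpow (by positivity) (by positivity), ← Real.exp_mul]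
      congr 2; field_simp

/-! ### compound symmetric Bernoulli sums -/

section Ex
variable {ι X : Type*} [AddCommGroup X] (ν : ι → ℝ) (U : ι → X)

noncomputable def Ex : List ι → (X → ℝ) → ℝ
  | [], F => F 0
  | a :: l, F => Ex l (fun u => (1 - ν a) * F u + ν a / 2 * F (u + U a) + ν a / 2 * F (u - U a))

variable {ν U}

lemma Ex_add (l : List ι) (F G : X → ℝ) :
    Ex ν U l (fun u => F u + G u) = Ex ν U l F + Ex ν U l G := by
  induction l generalizing F G with
  | nil => rfl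
  | cons a l ih =>
    simp only [Ex]
    rw [← ih]
    congr 1; funext u; ring

lemma Ex_mul (l : List ι) (c : ℝ) (F : X → ℝ) :
    Ex ν U l (fun u => c * F u) = c * Ex ν U l F := by
  induction l generalizing F with
  | nil => rfl
  | cons a l ih =>
    simp only [Ex]
    rw [← ih]
    congr 1; funext u; ring

lemma Ex_const (l : List ι) (c : ℝ) : Ex ν U l (fun _ => c) = c := by
  induction l with
  | nil => rfl
  | cons a l ih =>
    simp only [Ex]
    rw [← ih]
    congr 1; funext u; rw [ih]; ring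

lemma Ex_sum (l : List ι) {E : Type*} (s : Finset E) (F : E → X → ℝ) :
    Ex ν U l (fun u => ∑ e ∈ s, F e u) = ∑ e ∈ s, Ex ν U l (F e) := by
  classical
  induction s using Finset.induction_on with
  | empty => simp [Ex_const]
  | insert e s he ih => simp only [sum_insert he]; rw [Ex_add, ih]

lemma Ex_mono (hν : ∀ a, 0 ≤ ν a ∧ ν a ≤ 1) (l : List ι) {F G : X → ℝ} (h : ∀ u, F u ≤ G u) :
    Ex ν U l F ≤ Ex ν U l G := by
  induction l generalizing F G with
  | nil => exact h 0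
  | cons a l ih =>
    simp only [Ex]
    refine ih fun u => ?_
    obtain ⟨h1, h2⟩ := hν a
    have := mul_le_mul_of_nonneg_left (h u) (by linarith : 0 ≤ 1 - ν a)
    have := mul_le_mul_of_nonneg_left (h (u + U a)) (by linarith : 0 ≤ ν a / 2)
    have := mul_le_mul_of_nonneg_left (h (u - U a)) (by linarith : 0 ≤ ν a / 2)
    linarith

lemma Ex_exists (hν : ∀ a, 0 ≤ ν a ∧ ν a ≤ 1) (l : List ι) (F : X → ℝ) :
    ∃ u, F u ≤ Ex ν U l F := by
  induction l generalizing F with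
  | nil => exact ⟨0, le_rfl⟩
  | cons a l ih =>
    simp only [Ex]
    obtain ⟨u, hu⟩ := ih (fun u => (1 - ν a) * F u + ν a / 2 * F (u + U a) +
      ν a / 2 * F (u - U a))
    obtain ⟨h1, h2⟩ := hν a
    by_contra hc
    push Not at hc
    have a1 := hc u
    have a2 := hc (u + U a)
    have a3 := hc (u - U a)
    generalize Ex ν U l _ = c at hu a1 a2 a3
    rcases h1.eq_or_lt with h0 | h0
    · rw [← h0] at hu; linarith
    · nlinarith [mul_nonneg (sub_nonneg.2 h2) (sub_nonneg.2 a1.le), mul_pos h0 (sub_pos.2 a2),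
        mul_pos h0 (sub_pos.2 a3)]

lemma mom_cons (T : X →+ ℝ) (g : ℝ → ℝ) (a : ι) (l : List ι) :
    Ex ν U (a :: l) (fun u => g (T u)) = Ex ν U l (fun u => g (T u)) +
      ν a * Ex ν U l (fun u => (g (T u + T (U a)) + g (T u - T (U a))) / 2 - g (T u)) := by
  rw [← Ex_mul, ← Ex_add]
  simp only [Ex, map_add, map_sub]
  congr 1; funext u; ring

lemma mom_mono (hν : ∀ a, 0 ≤ ν a ∧ ν a ≤ 1) (T : X →+ ℝ) (g : ℝ → ℝ)
    (hg : ∀ t y, g t ≤ (g (t + y) + g (t - y)) / 2) (a : ι) (l : List ι) :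
    Ex ν U l (fun u => g (T u)) ≤ Ex ν U (a :: l) (fun u => g (T u)) := by
  rw [mom_cons]
  have h1 : Ex ν U l (fun _ => 0) ≤
      Ex ν U l (fun u => (g (T u + T (U a)) + g (T u - T (U a))) / 2 - g (T u)) :=
    Ex_mono hν l fun u => by linarith [hg (T u) (T (U a))]
  rw [Ex_const] at h1
  have := mul_nonneg (hν a).1 h1
  linarith

lemma mom_ge (hν : ∀ a, 0 ≤ ν a ∧ ν a ≤ 1) (T : X →+ ℝ) (g : ℝ → ℝ) (hg0 : 0 ≤ g 0)
    (hg : ∀ t y, g t ≤ (g (t + y) + g (t - y)) / 2) (lo β : ι → ℝ) (hβ : ∀ a, 0 ≤ β a)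
    (h : ∀ a t, lo a - β a * g t ≤ (g (t + T (U a)) + g (t - T (U a))) / 2 - g t)
    (l : List ι) :
    (l.map fun a => ν a * lo a).sum ≤
      (1 + (l.map fun a => ν a * β a).sum) * Ex ν U l (fun u => g (T u)) ∧
      0 ≤ Ex ν U l (fun u => g (T u)) ∧ 0 ≤ (l.map fun a => ν a * β a).sum := by
  induction l with
  | nil => simpa [Ex] using hg0
  | cons a l ih =>
    obtain ⟨ih1, ih2, ih3⟩ := ih
    have hm := mom_mono (U := U) hν T g hg a l
    have hνβ := mul_nonneg (hν a).1 (hβ a)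
    refine ⟨?_, by linarith, by simp only [List.map_cons, List.sum_cons]; linarith⟩
    have h1 : Ex ν U l (fun u => lo a + (- β a) * g (T u)) ≤
        Ex ν U l (fun u => (g (T u + T (U a)) + g (T u - T (U a))) / 2 - g (T u)) :=
      Ex_mono hν l fun u => by linarith [h a (T u)]
    rw [Ex_add, Ex_mul, Ex_const] at h1
    have h2 := mom_cons (ν := ν) (U := U) T g a l
    have h3 := mul_le_mul_of_nonneg_left h1 (hν a).1
    simp only [List.map_cons, List.sum_cons]
    nlinarith [mul_le_mul_of_nonneg_left hm ih3, mul_le_mul_of_nonneg_left hm hνβ]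

lemma mom_le (hν : ∀ a, 0 ≤ ν a ∧ ν a ≤ 1) (T : X →+ ℝ) (g : ℝ → ℝ) (hg0 : g 0 = 0)
    (hg : ∀ t y, g t ≤ (g (t + y) + g (t - y)) / 2) (hi β : ι → ℝ) (hβ : ∀ a, 0 ≤ β a)
    (h : ∀ a t, (g (t + T (U a)) + g (t - T (U a))) / 2 - g t ≤ hi a + β a * g t)
    (l : List ι) :
    Ex ν U l (fun u => g (T u)) ≤ (l.map fun a => ν a * hi a).sum +
      (l.map fun a => ν a * β a).sum * Ex ν U l (fun u => g (T u)) ∧
      0 ≤ (l.map fun a => ν a * β a).sum := by
  induction l with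
  | nil => simp [Ex, hg0]
  | cons a l ih =>
    obtain ⟨ih1, ih3⟩ := ih
    have hm := mom_mono (U := U) hν T g hg a l
    have hνβ := mul_nonneg (hν a).1 (hβ a)
    refine ⟨?_, by simp only [List.map_cons, List.sum_cons]; linarith⟩
    have h1 : Ex ν U l (fun u => (g (T u + T (U a)) + g (T u - T (U a))) / 2 - g (T u)) ≤
        Ex ν U l (fun u => hi a + β a * g (T u)) :=
      Ex_mono hν l fun u => h a (T u)
    rw [Ex_add, Ex_mul, Ex_const] at h1
    have h2 := mom_cons (ν := ν) (U := U) T g a l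
    have h3 := mul_le_mul_of_nonneg_left h1 (hν a).1
    simp only [List.map_cons, List.sum_cons]
    nlinarith [mul_le_mul_of_nonneg_left hm ih3, mul_le_mul_of_nonneg_left hm hνβ]

lemma exp_mom (hν : ∀ a, 0 ≤ ν a ∧ ν a ≤ 1) (T : X →+ ℝ) (t : ℝ) (l : List ι) :
    Ex ν U l (fun u => Real.exp (t * T u)) ≤
      Real.exp ((l.map fun a => ν a * (Real.cosh (t * T (U a)) - 1)).sum) := by
  induction l with
  | nil => simp [Ex]
  | cons a l ih =>
    rw [mom_cons T (fun x => Real.exp (t * x))]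
    have h1 : (fun u => (Real.exp (t * (T u + T (U a))) + Real.exp (t * (T u - T (U a)))) / 2 -
        Real.exp (t * T u)) = fun u => (Real.cosh (t * T (U a)) - 1) * Real.exp (t * T u) := by
      funext u
      rw [Real.cosh_eq, mul_add, mul_sub, Real.exp_add, Real.exp_sub, Real.exp_neg]
      ring
    rw [h1, Ex_mul]
    simp only [List.map_cons, List.sum_cons]
    rw [Real.exp_add]
    have h2 := Real.add_one_le_exp (ν a * (Real.cosh (t * T (U a)) - 1))
    have h3 : 0 ≤ ν a * (Real.cosh (t * T (U a)) - 1) :=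
      mul_nonneg (hν a).1 (by linarith [Real.one_le_cosh (t * T (U a))])
    have h4 := Real.exp_pos (l.map fun a => ν a * (Real.cosh (t * T (U a)) - 1)).sum
    nlinarith [mul_le_mul_of_nonneg_left ih h3, mul_le_mul_of_nonneg_right h2 h4.le]

lemma cosh_sub_one_le {x : ℝ} (hx : |x| ≤ 1) : Real.cosh x - 1 ≤ x ^ 2 := by
  have h1 := Real.cosh_le_exp_half_sq x
  have hx2 : x ^ 2 ≤ 1 := by
    obtain ⟨a, b⟩ := abs_le.1 hx; nlinarith
  have h2 : Real.exp (x ^ 2 / 2) ≤ 1 + x ^ 2 := by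
    have := Real.abs_exp_sub_one_sub_id_le (x := x ^ 2 / 2)
      (by rw [abs_of_nonneg (by positivity)]; linarith)
    have h3 := (abs_le.1 this).2
    nlinarith [sq_nonneg x]
  linarith

lemma exp_le_quad {x : ℝ} (hx : |x| ≤ 1) : Real.exp x ≤ 1 + x + x ^ 2 := by
  have := (abs_le.1 (Real.abs_exp_sub_one_sub_id_le hx)).2
  linarith

lemma greedy (hν : ∀ a, 0 ≤ ν a ∧ ν a ≤ 1) (l : List ι) {E : Type*} [Fintype E]
    (Z : E → X → ℝ) (T : ℝ) (hZ0 : ∀ e u, 0 ≤ Z e u) (hZT : ∀ e u, Z e u ≤ T)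
    (c : ℝ) (hc : 0 ≤ c) (hcT : c * T ≤ 1) (d : ℕ) :
    ∃ us : Fin d → X, ∑ e, (Real.exp (c * (∑ k, Z e (us k) - d * Ex ν U l (Z e))) +
      Real.exp (-(c * (∑ k, Z e (us k) - d * Ex ν U l (Z e))))) ≤
      2 * Fintype.card E * Real.exp (d * (c * T) ^ 2) := by
  have hμ0 : ∀ e, 0 ≤ Ex ν U l (Z e) := fun e => by
    have := Ex_mono (U := U) hν l (F := fun _ => 0) (hZ0 e)
    rwa [Ex_const] at this
  have hμT : ∀ e, Ex ν U l (Z e) ≤ T := fun e => by
    have := Ex_mono (U := U) hν l (G := fun _ => T) (hZT e)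
    rwa [Ex_const] at this
  have step : ∀ e (σ : ℝ), |σ| ≤ 1 →
      Ex ν U l (fun u => Real.exp (σ * (c * (Z e u - Ex ν U l (Z e))))) ≤
        Real.exp ((c * T) ^ 2) := by
    intro e σ hσ
    have h1 : ∀ u, Real.exp (σ * (c * (Z e u - Ex ν U l (Z e)))) ≤
        (1 - σ * c * Ex ν U l (Z e) + (c * T) ^ 2) + (σ * c) * Z e u := by
      intro u
      have a1 : |Z e u - Ex ν U l (Z e)| ≤ T :=
        abs_le.2 ⟨by linarith [hZ0 e u, hμT e], by linarith [hZT e u, hμ0 e]⟩
      have a2 : |σ * (c * (Z e u - Ex ν U l (Z e)))| ≤ c * T := by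
        rw [abs_mul, abs_mul, abs_of_nonneg hc]
        have := mul_le_mul_of_nonneg_left a1 hc
        nlinarith [abs_nonneg σ, mul_nonneg hc (abs_nonneg (Z e u - Ex ν U l (Z e)))]
      have a3 := exp_le_quad (a2.trans hcT)
      have a4 : (σ * (c * (Z e u - Ex ν U l (Z e)))) ^ 2 ≤ (c * T) ^ 2 := by
        rw [← sq_abs]
        exact pow_le_pow_left₀ (abs_nonneg _) a2 2
      linarith
    have h2 := Ex_mono (U := U) hν l h1
    rw [Ex_add, Ex_mul, Ex_const] at h2
    linarith [Real.add_one_le_exp ((c * T) ^ 2)]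
  induction d with
  | zero => exact ⟨fun k => k.elim0, by simp; linarith⟩
  | succ d ih =>
    obtain ⟨us, hus⟩ := ih
    set A : E → ℝ := fun e => c * (∑ k, Z e (us k) - d * Ex ν U l (Z e)) with hA
    obtain ⟨u, hu⟩ := Ex_exists (U := U) hν l (fun u => ∑ e,
      (Real.exp (A e) * Real.exp (1 * (c * (Z e u - Ex ν U l (Z e)))) +
        Real.exp (-A e) * Real.exp ((-1) * (c * (Z e u - Ex ν U l (Z e))))))
    refine ⟨Fin.cons u us, le_trans (le_of_eq ?_) (hu.trans ?_)⟩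
    · refine sum_congr rfl fun e _ => ?_
      rw [← Real.exp_add, ← Real.exp_add, Fin.sum_univ_succ]
      simp only [Fin.cons_zero, Fin.cons_succ, hA]
      push_cast
      congr 2 <;> ring
    · rw [Ex_sum]
      calc _ ≤ ∑ e, (Real.exp (A e) + Real.exp (-A e)) * Real.exp ((c * T) ^ 2) := by
            refine sum_le_sum fun e _ => ?_
            rw [Ex_add, Ex_mul, Ex_mul, add_mul]
            exact add_le_add
              (mul_le_mul_of_nonneg_left (step e 1 (by simp)) (Real.exp_pos _).le)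
              (mul_le_mul_of_nonneg_left (step e (-1) (by simp)) (Real.exp_pos _).le)
        _ ≤ 2 * Fintype.card E * Real.exp (d * (c * T) ^ 2) * Real.exp ((c * T) ^ 2) := by
            rw [← sum_mul]
            exact mul_le_mul_of_nonneg_right hus (Real.exp_pos _).le
        _ = _ := by
            rw [mul_assoc, ← Real.exp_add]; push_cast; congr 2; ring

lemma sampling (hν : ∀ a, 0 ≤ ν a ∧ ν a ≤ 1) (l : List ι) {E : Type*} [Fintype E] [Nonempty E]
    (Z : E → X → ℝ) (T : ℝ) (hT : 1 ≤ T) (hZ0 : ∀ e u, 0 ≤ Z e u) (hZT : ∀ e u, Z e u ≤ T)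
    (ε : ℝ) (hε : 0 < ε) (hε1 : ε ≤ 1) (d : ℕ)
    (hd : 4 * T ^ 2 * Real.log (2 * Fintype.card E) ≤ ε ^ 2 * d) :
    ∃ us : Fin d → X, ∀ e, |∑ k, Z e (us k) - d * Ex ν U l (Z e)| ≤ ε * d := by
  have hT0 : 0 < T := by linarith
  set c := ε / (2 * T ^ 2) with hc
  have hc0 : 0 < c := by positivity
  have hcT : c * T = ε / (2 * T) := by rw [hc]; field_simp
  obtain ⟨us, hus⟩ := greedy (U := U) hν l Z T hZ0 hZT c hc0.le (by
    rw [hcT, div_le_one (by positivity)]; linarith) d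
  refine ⟨us, fun e => ?_⟩
  have hE : (0 : ℝ) < 2 * Fintype.card E := by
    have : (0 : ℝ) < Fintype.card E := by exact_mod_cast Fintype.card_pos
    linarith
  set D := ∑ k, Z e (us k) - d * Ex ν U l (Z e) with hD
  have h1 : Real.exp (c * D) + Real.exp (-(c * D)) ≤
      2 * Fintype.card E * Real.exp (d * (c * T) ^ 2) :=
    le_trans (single_le_sum (f := fun e => Real.exp (c * (∑ k, Z e (us k) - d * Ex ν U l (Z e))) +
      Real.exp (-(c * (∑ k, Z e (us k) - d * Ex ν U l (Z e)))))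
      (fun e _ => by positivity) (mem_univ e)) hus
  have h2 : Real.exp (c * |D|) ≤ Real.exp (Real.log (2 * Fintype.card E) + d * (c * T) ^ 2) := by
    rw [Real.exp_add, Real.exp_log hE]
    refine le_trans ?_ h1
    rcases abs_cases D with ⟨h, -⟩ | ⟨h, -⟩
    · rw [h]; linarith [Real.exp_pos (-(c * D))]
    · rw [h, mul_neg]; linarith [Real.exp_pos (c * D)]
  have h3 := Real.exp_le_exp.1 h2
  have h4 : Real.log (2 * Fintype.card E) ≤ c * (ε * d / 2) := by
    rw [hc, div_mul_eq_mul_div, le_div_iff₀ (by positivity)]; linarith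
  have h5 : d * (c * T) ^ 2 = c * (ε * d / 2) := by
    rw [hc]; field_simp
  have h6 : c * |D| ≤ c * (ε * d) := by linarith
  exact le_of_mul_le_mul_left h6 hc0

open Classical in
/-- truncation to the Lipschitz event -/
noncomputable def trunc {E : Type*} (T : E → X →+ ℝ) (T' : ℝ) (u : X) : X :=
  if ∀ e, |T e u| ≤ T' then u else 0

lemma trunc_le {E : Type*} (T : E → X →+ ℝ) {T' : ℝ} (hT' : 0 ≤ T') (u : X) (e : E) :
    |T e (trunc T T' u)| ≤ T' := by
  unfold trunc
  split_ifs with h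
  · exact h e
  · simpa using hT'

lemma trunc_loss (hν : ∀ a, 0 ≤ ν a ∧ ν a ≤ 1) (l : List ι) {E : Type*} [Fintype E]
    (T : E → X →+ ℝ) {p B G T' : ℝ} (hp : 0 < p) (hB : 0 < B)
    (hy : ∀ e a, |T e (U a)| ≤ B)
    (hV : ∀ e, (l.map fun a => ν a * (T e (U a)) ^ 2).sum ≤ B ^ 2 * G) (e : E) :
    Ex ν U l (fun u => |T e (trunc T T' u)| ^ p) ≤ Ex ν U l (fun u => |T e u| ^ p) ∧
    Ex ν U l (fun u => |T e u| ^ p) ≤ Ex ν U l (fun u => |T e (trunc T T' u)| ^ p) +
      2 * Fintype.card E * ((2 * p) ^ p * B ^ p * Real.exp (G - T' / (2 * B))) := by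
  classical
  constructor
  · refine Ex_mono hν l fun u => ?_
    unfold trunc
    split_ifs
    · exact le_rfl
    · rw [map_zero, abs_zero, Real.zero_rpow hp.ne']; positivity
  set K := (2 * p) ^ p * B ^ p * Real.exp (- (T' / (2 * B))) with hK
  have hK0 : 0 ≤ K := by positivity
  have hpt : ∀ u, |T e u| ^ p ≤ |T e (trunc T T' u)| ^ p +
      ∑ e', K * (Real.exp ((1 / B) * T e' u) + Real.exp ((-1 / B) * T e' u)) := by
    intro u
    have hS : 0 ≤ ∑ e', K * (Real.exp ((1 / B) * T e' u) + Real.exp ((-1 / B) * T e' u)) :=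
      sum_nonneg fun e' _ => by positivity
    unfold trunc
    split_ifs with h
    · linarith
    · push Not at h
      obtain ⟨e0, he0⟩ := h
      obtain ⟨e1, -, he1⟩ := exists_max_image univ (fun e' => |T e' u|) ⟨e, mem_univ e⟩
      set x := |T e1 u| with hx
      have hx0 : 0 ≤ x := abs_nonneg _
      have hxT : T' < x := he0.trans_le (he1 e0 (mem_univ _))
      have a1 : |T e u| ^ p ≤ x ^ p :=
        Real.rpow_le_rpow (abs_nonneg _) (he1 e (mem_univ _)) hp.le
      have a2 : x ^ p = B ^ p * (x / B) ^ p := by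
        rw [← Real.mul_rpow hB.le (by positivity)]; congr 1; field_simp
      have a3 := rpow_le_exp_half (x := x / B) hp (by positivity)
      have a4 : Real.exp (x / B / 2) ≤ Real.exp (- (T' / (2 * B))) * Real.exp (x / B) := by
        rw [← Real.exp_add]
        refine Real.exp_le_exp.2 ?_
        have : T' / (2 * B) ≤ x / (2 * B) := div_le_div_of_nonneg_right hxT.le (by positivity)
        have e1 : x / B / 2 = x / (2 * B) := by field_simp
        have e2 : x / B = 2 * (x / (2 * B)) := by field_simp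
        rw [e1, e2]; linarith
      have a5 : Real.exp (x / B) ≤
          Real.exp ((1 / B) * T e1 u) + Real.exp ((-1 / B) * T e1 u) := by
        rcases abs_cases (T e1 u) with ⟨h, -⟩ | ⟨h, -⟩
        · rw [hx, h, show T e1 u / B = 1 / B * T e1 u by ring]
          linarith [Real.exp_pos ((-1 / B) * T e1 u)]
        · rw [hx, h, show -T e1 u / B = -1 / B * T e1 u by ring]
          linarith [Real.exp_pos ((1 / B) * T e1 u)]
      have a6 : x ^ p ≤ K * (Real.exp ((1 / B) * T e1 u) + Real.exp ((-1 / B) * T e1 u)) := by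
        calc x ^ p ≤ B ^ p * ((2 * p) ^ p * Real.exp (x / B / 2)) := by
              rw [a2]; exact mul_le_mul_of_nonneg_left a3 (by positivity)
          _ ≤ B ^ p * ((2 * p) ^ p * (Real.exp (- (T' / (2 * B))) * Real.exp (x / B))) := by
              gcongr
          _ = K * Real.exp (x / B) := by rw [hK]; ring
          _ ≤ _ := mul_le_mul_of_nonneg_left a5 hK0
      have a7 := single_le_sum (f := fun e' => K * (Real.exp ((1 / B) * T e' u) +
        Real.exp ((-1 / B) * T e' u))) (fun e' _ => by positivity) (mem_univ e1)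
      have a8 : 0 ≤ |T e 0| ^ p := by positivity
      linarith
  have hexp : ∀ e' (t : ℝ), |t| = 1 / B →
      Ex ν U l (fun u => Real.exp (t * T e' u)) ≤ Real.exp G := by
    intro e' t ht
    refine (exp_mom hν (T e') t l).trans (Real.exp_le_exp.2 ?_)
    have b1 : (l.map fun a => ν a * (Real.cosh (t * T e' (U a)) - 1)).sum ≤
        (l.map fun a => (1 / B ^ 2) * (ν a * (T e' (U a)) ^ 2)).sum := by
      refine List.sum_le_sum fun a _ => ?_
      have c1 : |t * T e' (U a)| ≤ 1 := by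
        rw [abs_mul, ht, one_div, ← div_eq_inv_mul, div_le_one hB]; exact hy e' a
      have c2 := mul_le_mul_of_nonneg_left (cosh_sub_one_le c1) (hν a).1
      have c3 : (t * T e' (U a)) ^ 2 = 1 / B ^ 2 * (T e' (U a)) ^ 2 := by
        rw [mul_pow, ← sq_abs t, ht]; ring
      rw [c3] at c2
      linarith
    rw [List.sum_map_mul_left] at b1
    refine b1.trans ?_
    rw [one_div, ← div_eq_inv_mul, div_le_iff₀ (by positivity)]
    linarith [hV e']
  have h1 := Ex_mono (U := U) hν l hpt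
  rw [Ex_add, Ex_sum] at h1
  refine h1.trans (add_le_add le_rfl ?_)
  calc _ ≤ ∑ e' : E, K * (Real.exp G + Real.exp G) := by
        refine sum_le_sum fun e' _ => ?_
        rw [Ex_mul, Ex_add]
        refine mul_le_mul_of_nonneg_left (add_le_add (hexp e' _ ?_) (hexp e' _ ?_)) hK0
        · exact abs_of_pos (by positivity)
        · rw [abs_div, abs_neg, abs_one, abs_of_pos hB]
    _ = _ := by
        rw [sum_const, card_univ, nsmul_eq_mul, hK, sub_eq_add_neg, Real.exp_add]; ring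

end Ex

end Crest.Agent.H7.Dr
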