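import Crest.Agent.H7.DrC

set_option autoImplicit false
set_option linter.unusedSectionVars false
set_option linter.unusedVariables false

open Finset

namespace Crest.Agent.H7.Dr

lemma geo_dec {r a B : ℝ} (hr0 : 0 ≤ r) (hr : r < 1) (ha : 0 ≤ a) (hB : 0 ≤ B) (L : ℕ) :
    ∑ τ ∈ range L, (if a * r ^ τ ≤ B then a * r ^ τ else 0) ≤ B / (1 - r) := by
  have h1r : 0 < 1 - r := by linarith
  have key : (1 - r) * ∑ τ ∈ range L, (if a * r ^ τ ≤ B then a * r ^ τ else 0) +
      min B (a * r ^ L) ≤ B := by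
    induction L with
    | zero => simp
    | succ L ih =>
      rw [sum_range_succ]
      split_ifs with h
      · rw [min_eq_right h] at ih
        have := min_le_right B (a * r ^ (L + 1))
        rw [pow_succ] at this ⊢
        linarith
      · rw [min_eq_left (le_of_lt (not_le.1 h))] at ih
        have := min_le_left B (a * r ^ (L + 1))
        linarith
  have : 0 ≤ min B (a * r ^ L) := le_min hB (by positivity)
  rw [le_div_iff₀ h1r]; linarith

lemma geo_inc {r a B : ℝ} (hr : 1 < r) (ha : 0 ≤ a) (hB : 0 ≤ B) (L : ℕ) :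
    ∑ τ ∈ range L, (if a * r ^ τ ≤ B then a * r ^ τ else 0) ≤ B * r / (r - 1) := by
  have h1r : 0 < r - 1 := by linarith
  have key : (r - 1) * ∑ τ ∈ range L, (if a * r ^ τ ≤ B then a * r ^ τ else 0) ≤
      min (B * r) (a * r ^ L) := by
    induction L with
    | zero => simp only [range_zero, sum_empty, mul_zero, pow_zero, mul_one]
              exact le_min (by positivity) ha
    | succ L ih =>
      rw [sum_range_succ]
      have h1 := ih.trans (min_le_left _ _)
      have h2 := ih.trans (min_le_right _ _)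
      have h3 : 0 ≤ a * r ^ L := by positivity
      rw [pow_succ]
      split_ifs with h
      · refine le_min ?_ ?_ <;> nlinarith
      · refine le_min ?_ ?_ <;> nlinarith
  rw [le_div_iff₀ h1r]; linarith [key.trans (min_le_left _ _)]

lemma geo_gt {r : ℝ} (hr0 : 0 ≤ r) (hr : r < 1) (l L : ℕ) :
    ∑ τ ∈ range L, (if l < τ then r ^ τ else 0) ≤ r ^ (l + 1) / (1 - r) := by
  refine le_trans (sum_le_sum fun τ _ => ?_) (geo_dec (a := 1) hr0 hr zero_le_one (by positivity) L)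
  split_ifs with h1 h2 h2
  · linarith
  · exact absurd (by rw [one_mul]; exact pow_le_pow_of_le_one hr0 hr.le h1) h2
  · positivity
  · exact le_rfl

lemma geo_le {r : ℝ} (hr : 1 < r) (l L : ℕ) :
    ∑ τ ∈ range L, (if l < τ then 0 else r ^ τ) ≤ r ^ l * r / (r - 1) := by
  refine le_trans (sum_le_sum fun τ _ => ?_) (geo_inc (a := 1) hr zero_le_one (by positivity) L)
  split_ifs with h1 h2 h2
  · positivity
  · exact le_rfl
  · linarith
  · exact absurd (by rw [one_mul]; exact pow_le_pow_right₀ hr.le (not_lt.1 h1)) h2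

lemma sum_shift (F : ℕ → ℝ) (h0 : F 0 = 0) (a J : ℕ) :
    ∑ j ∈ range J, F (j - a) = ∑ τ ∈ range (J - a), F τ := by
  induction J with
  | zero => simp
  | succ J ih =>
    rw [sum_range_succ, ih]
    rcases lt_or_ge J a with h | h
    · rw [show J - a = 0 by omega, show J + 1 - a = 0 by omega, h0]; simp
    · rw [show J + 1 - a = J - a + 1 by omega, sum_range_succ]

lemma sum_shift_le (F : ℕ → ℝ) (h0 : F 0 = 0) (hF : ∀ τ, 0 ≤ F τ) (a J : ℕ) :
    ∑ j ∈ range J, F (j - a) ≤ ∑ τ ∈ range J, F τ := by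
  rw [sum_shift F h0]
  exact sum_le_sum_of_subset_of_nonneg (range_subset_range.2 (by omega)) fun τ _ _ => hF τ

lemma sum_back_le (F : ℕ → ℝ) (h0 : F 0 = 0) (hF : ∀ τ, 0 ≤ F τ) (M i : ℕ) :
    ∑ k ∈ range M, F (i - k) ≤ ∑ τ ∈ range (i + 1), F τ := by
  induction M generalizing i with
  | zero => simpa using sum_nonneg fun τ _ => hF τ
  | succ M ih =>
    rw [sum_range_succ']
    rcases i with _ | i
    · simp [h0]
    · rw [sum_range_succ _ (i + 1)]
      have := ih i
      simp only [Nat.add_sub_add_right, Nat.sub_zero]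
      linarith

lemma sum_back_le' (F : ℕ → ℝ) (h0 : F 0 = 0) (hF : ∀ τ, 0 ≤ F τ) (M a j J : ℕ) (hj : j < J) :
    ∑ k ∈ range M, F (j - (a + k)) ≤ ∑ τ ∈ range J, F τ := by
  have h := sum_back_le F h0 hF M (j - a)
  simp only [Nat.sub_sub] at h
  exact h.trans (sum_le_sum_of_subset_of_nonneg (range_subset_range.2 (by omega))
    fun τ _ _ => hF τ)

/-- the windowed average -/
noncomputable def ww (M : ℕ) (h : ℕ → ℝ) (j : ℕ) : ℝ :=
  (∑ k ∈ range M, (h (j - (M + k)) - h (j - (3 * M + k)))) / M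

lemma ww_cost1 {p : ℝ} (hp : 1 ≤ p) {M : ℕ} (hM : 0 < M) (h : ℕ → ℝ) (h0 : h 0 = 0) (J : ℕ) :
    ∑ j ∈ range J, |ww M h j| ^ p ≤ (2 * ∑ τ ∈ range J, |h τ|) ^ p / (M : ℝ) ^ (p - 1) := by
  set Y := ∑ τ ∈ range J, |h τ| with hY
  have hY0 : 0 ≤ Y := sum_nonneg fun _ _ => abs_nonneg _
  have hM0 : (0 : ℝ) < M := by exact_mod_cast hM
  have hb : ∀ j, |ww M h j| ≤
      (∑ k ∈ range M, (|h (j - (M + k))| + |h (j - (3 * M + k))|)) / M := by
    intro j
    rw [ww, abs_div, abs_of_pos hM0]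
    exact div_le_div_of_nonneg_right ((abs_sum_le_sum_abs _ _).trans
      (sum_le_sum fun k _ => abs_sub _ _)) hM0.le
  have h1 : ∀ j ∈ range J, |ww M h j| ≤ 2 * Y / M := by
    intro j hj
    refine (hb j).trans (div_le_div_of_nonneg_right ?_ hM0.le)
    rw [sum_add_distrib]
    have a1 := sum_back_le' (fun τ => |h τ|) (by simp [h0]) (fun _ => abs_nonneg _) M M j J
      (mem_range.1 hj)
    have a2 := sum_back_le' (fun τ => |h τ|) (by simp [h0]) (fun _ => abs_nonneg _) M (3 * M) j J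
      (mem_range.1 hj)
    linarith
  have h2 : ∑ j ∈ range J, |ww M h j| ≤ 2 * Y := by
    refine (sum_le_sum fun j _ => hb j).trans ?_
    rw [← sum_div, div_le_iff₀ hM0, sum_comm]
    calc _ ≤ ∑ k ∈ range M, 2 * Y := by
          refine sum_le_sum fun k _ => ?_
          rw [sum_add_distrib]
          have a1 := sum_shift_le (fun τ => |h τ|) (by simp [h0]) (fun _ => abs_nonneg _) (M + k) J
          have a2 := sum_shift_le (fun τ => |h τ|) (by simp [h0]) (fun _ => abs_nonneg _)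
            (3 * M + k) J
          linarith
      _ = _ := by rw [sum_const, card_range, nsmul_eq_mul]; ring
  calc _ ≤ ∑ j ∈ range J, (2 * Y / M) ^ (p - 1) * |ww M h j| := by
        refine sum_le_sum fun j hj => ?_
        have e : |ww M h j| ^ p = |ww M h j| ^ (p - 1) * |ww M h j| := by
          rw [← Real.rpow_add_one' (abs_nonneg _) (by linarith)]; congr 1; ring
        rw [e]
        exact mul_le_mul_of_nonneg_right
          (Real.rpow_le_rpow (abs_nonneg _) (h1 j hj) (by linarith)) (abs_nonneg _)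
    _ ≤ (2 * Y / M) ^ (p - 1) * (2 * Y) := by
        rw [← mul_sum]; exact mul_le_mul_of_nonneg_left h2 (by positivity)
    _ = _ := by
        have e : (2 * Y) ^ p = (2 * Y) ^ (p - 1) * (2 * Y) := by
          rw [← Real.rpow_add_one' (by positivity) (by linarith)]; congr 1; ring
        rw [e, Real.div_rpow (by positivity) hM0.le]; ring

lemma ww_cost2 {q ρ : ℝ} (hq : 1 ≤ q) (hρ0 : 0 ≤ ρ) (hρ : ρ ≤ 1) {M : ℕ} (hM : 0 < M)
    (h : ℕ → ℝ) (h0 : h 0 = 0) (J : ℕ) :
    ∑ j ∈ range J, ρ ^ j * |ww M h j| ^ q ≤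
      2 * 2 ^ q * ρ ^ M * ∑ τ ∈ range J, ρ ^ τ * |h τ| ^ q := by
  have hM0 : (0 : ℝ) < M := by exact_mod_cast hM
  set F : ℕ → ℝ := fun τ => ρ ^ τ * |h τ| ^ q with hF
  have hF0 : F 0 = 0 := by simp [hF, h0, Real.zero_rpow (by linarith : q ≠ 0)]
  have hFn : ∀ τ, 0 ≤ F τ := fun τ => by positivity
  have hsh : ∀ j a, M ≤ a → ρ ^ j * |h (j - a)| ^ q ≤ ρ ^ M * F (j - a) := by
    intro j a ha
    rcases lt_or_ge j a with hj | hj
    · rw [show j - a = 0 by omega, hF0, h0]; simp [Real.zero_rpow (by linarith : q ≠ 0)]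
    · simp only [hF]
      rw [← mul_assoc, ← pow_add]
      exact mul_le_mul_of_nonneg_right (pow_le_pow_of_le_one hρ0 hρ (by omega)) (by positivity)
  have hb : ∀ j, |ww M h j| ^ q ≤
      ∑ k ∈ range M, (1 / M : ℝ) * (2 ^ q * (|h (j - (M + k))| ^ q + |h (j - (3 * M + k))| ^ q)) := by
    intro j
    have a1 : |ww M h j| ≤ ∑ k ∈ range M, (1 / M : ℝ) * |h (j - (M + k)) - h (j - (3 * M + k))| := by
      rw [ww, abs_div, abs_of_pos hM0, ← mul_sum, one_div, ← div_eq_inv_mul]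
      exact div_le_div_of_nonneg_right (abs_sum_le_sum_abs _ _) hM0.le
    have a2 := Real.rpow_arith_mean_le_arith_mean_rpow (range M) (fun _ => (1 / M : ℝ))
      (fun k => |h (j - (M + k)) - h (j - (3 * M + k))|) (fun _ _ => by positivity)
      (by rw [sum_const, card_range, nsmul_eq_mul]; field_simp) (fun _ _ => abs_nonneg _) hq
    refine ((Real.rpow_le_rpow (abs_nonneg _) a1 (by linarith)).trans a2).trans
      (sum_le_sum fun k _ => mul_le_mul_of_nonneg_left ?_ (by positivity))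
    have := I5 (p := q) (δ := 1) (by linarith) one_pos (h (j - (M + k))) (- h (j - (3 * M + k)))
    rw [abs_neg, ← sub_eq_add_neg] at this
    norm_num at this
    linarith
  calc _ ≤ ∑ j ∈ range J, ∑ k ∈ range M, (1 / M : ℝ) * (2 ^ q * (ρ ^ M *
        (F (j - (M + k)) + F (j - (3 * M + k))))) := by
        refine sum_le_sum fun j _ => ?_
        refine (mul_le_mul_of_nonneg_left (hb j) (by positivity)).trans ?_
        rw [mul_sum]
        refine sum_le_sum fun k _ => ?_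
        have b1 := hsh j (M + k) (by omega)
        have b2 := hsh j (3 * M + k) (by omega)
        have b3 := mul_le_mul_of_nonneg_left (add_le_add b1 b2)
          (by positivity : 0 ≤ (1 / M : ℝ) * 2 ^ q)
        linarith
    _ ≤ ∑ k ∈ range M, (1 / M : ℝ) * (2 ^ q * (ρ ^ M * (2 * ∑ τ ∈ range J, F τ))) := by
        rw [sum_comm]
        refine sum_le_sum fun k _ => ?_
        rw [← mul_sum, ← mul_sum, ← mul_sum, sum_add_distrib]
        have a1 := sum_shift_le F hF0 hFn (M + k) J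
        have a2 := sum_shift_le F hF0 hFn (3 * M + k) J
        gcongr
        linarith
    _ = _ := by
        rw [sum_const, card_range, nsmul_eq_mul]; field_simp

lemma rp_pow (c : ℝ) (τ : ℕ) : ((2 : ℝ) ^ c) ^ τ = ((2 : ℝ) ^ τ) ^ c := by
  rw [← Real.rpow_natCast, ← Real.rpow_natCast, ← Real.rpow_mul (by norm_num),
    ← Real.rpow_mul (by norm_num), mul_comm]

lemma rp_lt_one {c : ℝ} (hc : c < 0) : (2 : ℝ) ^ c < 1 :=
  Real.rpow_lt_one_of_one_lt_of_neg (by norm_num) hc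

lemma rp_gt_one {c : ℝ} (hc : 0 < c) : 1 < (2 : ℝ) ^ c :=
  Real.one_lt_rpow (by norm_num) hc

/-- the `ℓ¹` bound of the error profile for `p > 2` -/
lemma Y_bound {p : ℝ} (hp : 2 < p) : ∃ C : ℝ, 0 ≤ C ∧ ∀ (R : ℝ) (hR : 0 < R) (h : ℕ → ℝ) (J : ℕ)
    (ha : ∀ τ, |h τ| ≤ R * (1 / 2) ^ τ),
    (∑ τ ∈ range J, |h τ|) ^ p ≤
      C * R ^ (p - 2) * ∑ τ ∈ range J, ((2 : ℝ) ^ (2 - p)) ^ τ * h τ ^ 2 := by
  set r : ℝ := 2 ^ ((p - 2) / 2) with hr
  have hr1 : 1 < r := rp_gt_one (by linarith)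
  set C0 : ℝ := 2 + r / (r - 1) with hC0
  have hC00 : 0 ≤ C0 := by
    have : 0 ≤ r / (r - 1) := div_nonneg (by linarith) (by linarith)
    linarith
  refine ⟨C0 ^ p, by positivity, fun R hR h J ha => ?_⟩
  set E := ∑ τ ∈ range J, ((2 : ℝ) ^ (2 - p)) ^ τ * h τ ^ 2 with hE
  have hE0 : 0 ≤ E := sum_nonneg fun τ _ => by positivity
  set B := (R ^ (p - 2) * E) ^ (1 / p) with hB
  have hB0 : 0 ≤ B := by positivity
  have hBp : B ^ p = R ^ (p - 2) * E := by
    rw [hB, ← Real.rpow_mul (by positivity), one_div_mul_cancel (by linarith), Real.rpow_one]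
  have hr2 : ∀ τ : ℕ, (r ^ τ) ^ 2 = ((2 : ℝ) ^ τ) ^ (p - 2) := by
    intro τ
    rw [hr, rp_pow, ← Real.rpow_natCast, ← Real.rpow_mul (by positivity)]
    congr 1; push_cast; ring
  have hb : ∀ τ ∈ range J, |h τ| ≤ √E * r ^ τ := by
    intro τ hτ
    have a1 : ((2 : ℝ) ^ (2 - p)) ^ τ * h τ ^ 2 ≤ E :=
      single_le_sum (f := fun τ => ((2 : ℝ) ^ (2 - p)) ^ τ * h τ ^ 2)
        (fun τ _ => by positivity) hτ
    have a2 : ((2 : ℝ) ^ τ) ^ (p - 2) * ((2 : ℝ) ^ (2 - p)) ^ τ = 1 := by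
      rw [rp_pow, ← Real.rpow_add (by positivity)]; simp
    refine abs_le_of_sq_le_sq' ?_ (by positivity) |> abs_le.2
    rw [mul_pow, Real.sq_sqrt hE0, hr2]
    have a3 := mul_le_mul_of_nonneg_left a1 (by positivity : 0 ≤ ((2 : ℝ) ^ τ) ^ (p - 2))
    rw [← mul_assoc, a2] at a3
    linarith
  have hc : ∀ τ : ℕ, ¬ R * (1 / 2) ^ τ ≤ B → √E * r ^ τ ≤ B := by
    intro τ hτ
    push Not at hτ
    refine (abs_le_of_sq_le_sq' ?_ hB0).2
    rw [mul_pow, Real.sq_sqrt hE0, hr2]
    rcases hB0.eq_or_lt with hB00 | hBpos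
    · have : R ^ (p - 2) * E = 0 := by
        rw [← hBp, ← hB00, Real.zero_rpow (by linarith)]
      have hE00 : E = 0 := (mul_eq_zero.1 this).resolve_left (by positivity)
      rw [hE00]; simpa using sq_nonneg B
    · have b1 : B * 2 ^ τ ≤ R := by
        have : R * (1 / 2) ^ τ * 2 ^ τ = R := by
          rw [mul_assoc, ← mul_pow]; simp
        nlinarith [mul_lt_mul_of_pos_right hτ (by positivity : (0 : ℝ) < 2 ^ τ)]
      have b2 : B ^ (p - 2) * ((2 : ℝ) ^ τ) ^ (p - 2) ≤ R ^ (p - 2) := by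
        rw [← Real.mul_rpow hB0 (by positivity)]
        exact Real.rpow_le_rpow (by positivity) b1 (by linarith)
      have b3 : B ^ p = B ^ 2 * B ^ (p - 2) := by
        have := abs_rpow_split hp.le B
        rwa [abs_of_nonneg hB0] at this
      have b4 : 0 < B ^ (p - 2) := by positivity
      refine le_of_mul_le_mul_right ?_ b4
      rw [← b3, hBp]
      nlinarith [mul_le_mul_of_nonneg_left b2 hE0]
  have hY : ∑ τ ∈ range J, |h τ| ≤ C0 * B := by
    calc _ ≤ ∑ τ ∈ range J, ((if R * (1 / 2) ^ τ ≤ B then R * (1 / 2) ^ τ else 0) +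
          (if √E * r ^ τ ≤ B then √E * r ^ τ else 0)) := by
          refine sum_le_sum fun τ hτ => ?_
          by_cases h1 : R * (1 / 2) ^ τ ≤ B
          · rw [if_pos h1]
            have : 0 ≤ (if √E * r ^ τ ≤ B then √E * r ^ τ else 0) := by
              split_ifs <;> positivity
            linarith [ha τ]
          · rw [if_neg h1, if_pos (hc τ h1)]
            linarith [hb τ hτ]
      _ ≤ B / (1 - 1 / 2) + B * r / (r - 1) := by
          rw [sum_add_distrib]
          exact add_le_add (geo_dec (by norm_num) (by norm_num) hR.le hB0 J)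
            (geo_inc hr1 (by positivity) hB0 J)
      _ = _ := by rw [hC0]; ring
  calc _ ≤ (C0 * B) ^ p :=
        Real.rpow_le_rpow (sum_nonneg fun _ _ => abs_nonneg _) hY (by linarith)
    _ = _ := by rw [Real.mul_rpow hC00 hB0, hBp]; ring

lemma pt_interp {p A x : ℝ} (hp1 : 1 ≤ p) (hp2 : p ≤ 2) (hA : 0 < A) :
    |x| ^ p ≤ A ^ (p - 1) * |x| + A ^ (p - 2) * x ^ 2 := by
  have h1 : 0 ≤ A ^ (p - 1) * |x| := by positivity
  have h2 : 0 ≤ A ^ (p - 2) * x ^ 2 := by positivity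
  rcases le_total |x| A with h | h
  · have e : |x| ^ p = |x| ^ (p - 1) * |x| := by
      rw [← Real.rpow_add_one' (abs_nonneg _) (by linarith)]; congr 1; ring
    have := mul_le_mul_of_nonneg_right (Real.rpow_le_rpow (abs_nonneg x) h
      (by linarith : 0 ≤ p - 1)) (abs_nonneg x)
    linarith
  · have hx : 0 < |x| := hA.trans_le h
    have e : |x| ^ p = |x| ^ (p - 2) * x ^ 2 := by
      rw [← sq_abs, ← Real.rpow_natCast, ← Real.rpow_add hx]; congr 1; push_cast; ring
    have := mul_le_mul_of_nonneg_right (Real.rpow_le_rpow_of_nonpos hA h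
      (by linarith : p - 2 ≤ 0)) (sq_nonneg x)
    linarith

lemma pt_interp' {p R x : ℝ} (hp1 : 1 ≤ p) (hp2 : p ≤ 2) (hR : 0 < R) (τ : ℕ) :
    |x| ^ p ≤ R ^ (1 - p) * (((2 : ℝ) ^ (1 - p)) ^ τ * |x|) +
      R ^ (2 - p) * (((2 : ℝ) ^ (2 - p)) ^ τ * x ^ 2) := by
  have h := pt_interp (x := x) hp1 hp2 (A := (R * 2 ^ τ)⁻¹) (by positivity)
  have e : ∀ c : ℝ, ((R * 2 ^ τ)⁻¹) ^ (p - c) = R ^ (c - p) * ((2 : ℝ) ^ (c - p)) ^ τ := by
    intro c
    rw [Real.inv_rpow (by positivity), ← Real.rpow_neg (by positivity), neg_sub,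
      Real.mul_rpow hR.le (by positivity), rp_pow]
  rw [e, e] at h
  linarith

/-- the window -/
noncomputable def Th (M s : ℕ) : ℝ :=
  (∑ k ∈ range M, ((if M + k < s then (1 : ℝ) else 0) - (if 3 * M + k < s then 1 else 0))) / M

lemma Th_nonneg (M s : ℕ) : 0 ≤ Th M s := by
  refine div_nonneg (sum_nonneg fun k _ => ?_) (Nat.cast_nonneg _)
  split_ifs with h1 h2 h2
  · simp
  · simp
  · omega
  · simp

lemma Th_le_one (M s : ℕ) : Th M s ≤ 1 := by
  refine div_le_one_of_le₀ ?_ (Nat.cast_nonneg _)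
  calc _ ≤ ∑ k ∈ range M, (1 : ℝ) := sum_le_sum fun k _ => by split_ifs <;> norm_num
    _ = _ := by simp

lemma Th_low {M s : ℕ} (h : s ≤ M) : Th M s = 0 := by
  rw [Th, sum_eq_zero fun k _ => by rw [if_neg (by omega), if_neg (by omega)]; simp]; simp

lemma Th_high {M s : ℕ} (h : 4 * M ≤ s) : Th M s = 0 := by
  rw [Th, sum_eq_zero fun k hk => by
    have := mem_range.1 hk
    rw [if_pos (by omega), if_pos (by omega)]; simp]; simp

lemma Th_mid {M s : ℕ} (hM : 0 < M) (h1 : 2 * M ≤ s) (h2 : s ≤ 3 * M) : Th M s = 1 := by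
  rw [Th, sum_congr rfl (g := fun _ => (1 : ℝ)) fun k hk => by
    have := mem_range.1 hk
    rw [if_pos (by omega), if_neg (by omega)]; simp]
  have : (M : ℝ) ≠ 0 := by positivity
  simp [this]

noncomputable def NN (p : ℝ) (M : ℕ) : ℝ := ∑ s ∈ range (4 * M), Th M s ^ p

lemma NN_le {p : ℝ} (hp : 0 ≤ p) (M : ℕ) : NN p M ≤ 4 * M := by
  calc _ ≤ ∑ s ∈ range (4 * M), (1 : ℝ) :=
        sum_le_sum fun s _ => Real.rpow_le_one (Th_nonneg _ _) (Th_le_one _ _) hp
    _ = _ := by simp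

lemma le_NN (p : ℝ) {M : ℕ} (hM : 0 < M) : M ≤ NN p M := by
  calc (M : ℝ) = ∑ s ∈ Ico (2 * M) (3 * M), Th M s ^ p := by
        rw [sum_congr rfl (g := fun _ => (1 : ℝ)) fun s hs => by
          have := mem_Ico.1 hs
          rw [Th_mid hM this.1 this.2.le, Real.one_rpow]]
        rw [sum_const, Nat.card_Ico, show 3 * M - 2 * M = M by omega]; simp
    _ ≤ _ := sum_le_sum_of_subset_of_nonneg (fun s hs => by
        have := mem_Ico.1 hs
        exact mem_range.2 (by omega)) fun s _ _ => Real.rpow_nonneg (Th_nonneg _ _) _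

lemma sum_Th {p : ℝ} (hp : 0 < p) (M l J : ℕ) (hJ : l + 4 * M ≤ J) :
    ∑ j ∈ range J, Th M (j - l) ^ p = NN p M := by
  rw [sum_shift (fun s => Th M s ^ p) (by
    simp only [Th_low (Nat.zero_le M)]; exact Real.zero_rpow hp.ne')]
  refine (sum_subset (range_subset_range.2 (by omega)) fun s _ hs => ?_).symm
  rw [Th_high (by simpa using hs), Real.zero_rpow hp.ne']

end Crest.Agent.H7.Dr
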