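import Crest.Agent.H7.DrB
import Crest.Agent.H7.DrD

set_option autoImplicit false
set_option linter.unusedSectionVars false
set_option linter.unusedVariables false

open Finset

namespace Crest.Agent.H7.Dr

def Lev (x : ℝ) (l : ℕ) : Prop := |x| ≤ (1 / 2) ^ l ∧ (x ≠ 0 → (1 / 2) ^ (l + 1) < |x|)

lemma exists_lev {x : ℝ} (hx : |x| ≤ 1) : ∃ l, Lev x l := by
  rcases eq_or_ne x 0 with h | h
  · exact ⟨0, by simpa using hx, fun h' => absurd h h'⟩
  · obtain ⟨l, h1, h2⟩ := exists_nat_pow_near_of_lt_one (abs_pos.2 h) hx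
      (by norm_num : (0 : ℝ) < 1 / 2) (by norm_num)
    exact ⟨l, h2, fun _ => h1⟩

lemma Lev.key1 {x c : ℝ} {l : ℕ} (h : Lev x l) (hx : x ≠ 0) (hc : 0 ≤ c) :
    ((2 : ℝ) ^ (-c)) ^ (l + 1) ≤ |x| ^ c := by
  rw [rp_pow, Real.rpow_neg (by positivity), ← Real.inv_rpow (by positivity)]
  refine Real.rpow_le_rpow (by positivity) ?_ hc
  have := (h.2 hx).le
  rwa [one_div, inv_pow] at this

lemma Lev.key2 {x c : ℝ} {l : ℕ} (h : Lev x l) (hc : 0 ≤ c) :
    ((2 : ℝ) ^ c) ^ l * |x| ^ c ≤ 1 := by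
  rw [rp_pow, ← Real.mul_rpow (by positivity) (abs_nonneg _)]
  refine Real.rpow_le_one (by positivity) ?_ hc
  have h1 := mul_le_mul_of_nonneg_left h.1 (by positivity : (0 : ℝ) ≤ 2 ^ l)
  rwa [← mul_pow, show (2 : ℝ) * (1 / 2) = 1 by norm_num, one_pow] at h1

/-- tail sum over levels beyond `l + M` -/
lemma Lev.tail {x c g : ℝ} {l : ℕ} (h : Lev x l) (hc : 0 < c) (hg : 0 ≤ g) (hg0 : x = 0 → g = 0)
    (M J : ℕ) :
    ∑ j ∈ range J, ((2 : ℝ) ^ (-c)) ^ j * (if l + M < j then g else 0) ≤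
      ((2 : ℝ) ^ (-c)) ^ M / (1 - 2 ^ (-c)) * (g * |x| ^ c) := by
  have hr1 : (2 : ℝ) ^ (-c) < 1 := rp_lt_one (by linarith)
  have hr0 : (0 : ℝ) ≤ 2 ^ (-c) := by positivity
  have h1r : 0 < 1 - (2 : ℝ) ^ (-c) := by linarith
  rcases eq_or_ne x 0 with hx | hx
  · rw [hg0 hx]; simp
  have e : ∑ j ∈ range J, ((2 : ℝ) ^ (-c)) ^ j * (if l + M < j then g else 0) =
      g * ∑ j ∈ range J, (if l + M < j then ((2 : ℝ) ^ (-c)) ^ j else 0) := by
    rw [mul_sum]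
    exact sum_congr rfl fun j _ => by split_ifs <;> ring
  rw [e]
  have h1 := geo_gt hr0 hr1 (l + M) J
  have h2 := h.key1 hx hc.le
  calc _ ≤ g * (((2 : ℝ) ^ (-c)) ^ (l + M + 1) / (1 - 2 ^ (-c))) :=
        mul_le_mul_of_nonneg_left h1 hg
    _ = ((2 : ℝ) ^ (-c)) ^ M / (1 - 2 ^ (-c)) * (g * ((2 : ℝ) ^ (-c)) ^ (l + 1)) := by
        rw [show l + M + 1 = M + (l + 1) by ring, pow_add]; ring
    _ ≤ _ := by gcongr

lemma Lev.head {x p : ℝ} {l : ℕ} (h : Lev x l) (hp0 : 0 < p) (hp : p < 2) (J : ℕ) :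
    ∑ j ∈ range J, ((2 : ℝ) ^ (2 - p)) ^ j * (if l < j then 0 else x) ^ 2 ≤
      2 ^ (2 - p) / (2 ^ (2 - p) - 1) * |x| ^ p := by
  have hr1 : 1 < (2 : ℝ) ^ (2 - p) := rp_gt_one (by linarith)
  have e : ∑ j ∈ range J, ((2 : ℝ) ^ (2 - p)) ^ j * (if l < j then 0 else x) ^ 2 =
      x ^ 2 * ∑ j ∈ range J, (if l < j then 0 else ((2 : ℝ) ^ (2 - p)) ^ j) := by
    rw [mul_sum]
    exact sum_congr rfl fun j _ => by split_ifs <;> ring
  rw [e]
  have h1 := geo_le hr1 l J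
  have h2 := h.key2 (c := 2 - p) (by linarith)
  have h3 : x ^ 2 = |x| ^ p * |x| ^ (2 - p) := by
    rw [← Real.rpow_add' (abs_nonneg _) (by norm_num), ← sq_abs, ← Real.rpow_natCast]
    congr 1; push_cast; ring
  have h4 : 0 < (2 : ℝ) ^ (2 - p) - 1 := by linarith
  calc _ ≤ x ^ 2 * (((2 : ℝ) ^ (2 - p)) ^ l * 2 ^ (2 - p) / (2 ^ (2 - p) - 1)) :=
        mul_le_mul_of_nonneg_left h1 (sq_nonneg _)
    _ = 2 ^ (2 - p) / (2 ^ (2 - p) - 1) * |x| ^ p * (((2 : ℝ) ^ (2 - p)) ^ l * |x| ^ (2 - p)) := by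
        rw [h3]; ring
    _ ≤ 2 ^ (2 - p) / (2 ^ (2 - p) - 1) * |x| ^ p * 1 :=
        mul_le_mul_of_nonneg_left h2 (by positivity)
    _ = _ := mul_one _

lemma nu_mul_rpow (p z : ℝ) (j : ℕ) : ((2 : ℝ) ^ (-p)) ^ j * |2 ^ j * z| ^ p = |z| ^ p := by
  rw [abs_mul, Real.mul_rpow (abs_nonneg _) (abs_nonneg _), abs_of_pos (by positivity), rp_pow,
    ← mul_assoc, ← Real.rpow_add (by positivity)]
  simp

lemma nu_mul_sq (p z : ℝ) (j : ℕ) :
    ((2 : ℝ) ^ (-p)) ^ j * (2 ^ j * z) ^ 2 = ((2 : ℝ) ^ (2 - p)) ^ j * z ^ 2 := by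
  rw [mul_pow, ← mul_assoc, rp_pow, rp_pow, ← Real.rpow_natCast ((2 : ℝ) ^ j) 2,
    ← Real.rpow_add (by positivity)]
  congr 2; push_cast; ring

variable {V : Type*} [Fintype V] [DecidableEq V] {Ω : Type*} [Fintype Ω]

/-- residual of a field -/
noncomputable def res (κ : V × V → ℝ) (P : V × V → V → ℝ) (f : V × V → ℝ) (e : V × V) : ℝ :=
  f e - sig κ (prj P f) e

lemma res_add (κ : V × V → ℝ) (P : V × V → V → ℝ) (f g : V × V → ℝ) (e : V × V) :
    res κ P (fun e => f e + g e) e = res κ P f e + res κ P g e := by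
  simp only [res, sig_prj, add_mul, sum_add_distrib]; ring

lemma res_sub (κ : V × V → ℝ) (P : V × V → V → ℝ) (f g : V × V → ℝ) (e : V × V) :
    res κ P (fun e => f e - g e) e = res κ P f e - res κ P g e := by
  simp only [res, sig_prj, sub_mul, sum_sub_distrib]; ring

lemma res_mul (κ : V × V → ℝ) (P : V × V → V → ℝ) (c : ℝ) (f : V × V → ℝ) (e : V × V) :
    res κ P (fun e => c * f e) e = c * res κ P f e := by
  simp only [res, sig_prj, mul_assoc, ← mul_sum]; ring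

lemma res_sum (κ : V × V → ℝ) (P : V × V → V → ℝ) {I : Type*} (s : Finset I)
    (f : I → V × V → ℝ) (e : V × V) :
    res κ P (fun e => ∑ i ∈ s, f i e) e = ∑ i ∈ s, res κ P (f i) e := by
  simp only [res, sig_prj, sum_mul, sum_sub_distrib]
  rw [sum_comm]

lemma abs_sig_prj_le (κ : V × V → ℝ) (P : V × V → V → ℝ) (f : V × V → ℝ) (e : V × V) :
    |sig κ (prj P f) e| ≤ ∑ e', |f e'| * |sig κ (P e') e| := by
  rw [sig_prj]
  exact (abs_sum_le_sum_abs _ _).trans (le_of_eq (sum_congr rfl fun e' _ => abs_mul _ _))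

lemma abs_sig_prj_le' (κ : V × V → ℝ) (P : V × V → V → ℝ) (f : V × V → ℝ) (e : V × V)
    {b R : ℝ} (hb : ∀ e', |f e'| ≤ b) (hR : ∑ e', |sig κ (P e') e| ≤ R) :
    |sig κ (prj P f) e| ≤ R * b := by
  have hb0 : 0 ≤ b := (abs_nonneg _).trans (hb e)
  calc _ ≤ ∑ e', b * |sig κ (P e') e| := (abs_sig_prj_le κ P f e).trans
        (sum_le_sum fun e' _ => mul_le_mul_of_nonneg_right (hb e') (abs_nonneg _))
    _ ≤ _ := by rw [← mul_sum, mul_comm]; exact mul_le_mul_of_nonneg_right hR hb0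

def lg (v : V × V → ℝ) (lv : V × V → ℕ) (τ : ℕ) (e : V × V) : ℝ := if lv e < τ then v e else 0
def sm (v : V × V → ℝ) (lv : V × V → ℕ) (τ : ℕ) (e : V × V) : ℝ := if lv e < τ then 0 else v e

lemma res_lg_eq (κ : V × V → ℝ) (P : V × V → V → ℝ) (v : V × V → ℝ) (lv : V × V → ℕ)
    (hv : ∀ e, res κ P v e = 0) (τ : ℕ) (e : V × V) :
    res κ P (lg v lv τ) e = - res κ P (sm v lv τ) e := by
  have h := res_add κ P (lg v lv τ) (sm v lv τ) e
  have : (fun e => lg v lv τ e + sm v lv τ e) = v := by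
    funext e; unfold lg sm; split_ifs <;> simp
  rw [this, hv] at h
  linarith

lemma res_lg_zero (κ : V × V → ℝ) (P : V × V → V → ℝ) (v : V × V → ℝ) (lv : V × V → ℕ)
    (e : V × V) : res κ P (lg v lv 0) e = 0 := by
  simp [res, lg, sig_prj]

lemma res_lg_abs (κ : V × V → ℝ) (P : V × V → V → ℝ) (v : V × V → ℝ) (lv : V × V → ℕ)
    (hv : ∀ e, res κ P v e = 0) (hlv : ∀ e, Lev (v e) (lv e)) {R : ℝ} (e : V × V)
    (hR : ∑ e', |sig κ (P e') e| ≤ R) (τ : ℕ) :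
    |res κ P (lg v lv τ) e| ≤ (1 + R) * (1 / 2) ^ τ := by
  have hb : ∀ e', |sm v lv τ e'| ≤ (1 / 2) ^ τ := by
    intro e'
    unfold sm
    split_ifs with h
    · simp
    · exact (hlv e').1.trans (pow_le_pow_of_le_one (by norm_num) (by norm_num) (not_lt.1 h))
  rw [res_lg_eq κ P v lv hv, abs_neg, res]
  have h1 := abs_sig_prj_le' κ P _ e hb hR
  have h2 := abs_sub (sm v lv τ e) (sig κ (prj P (sm v lv τ)) e)
  linarith [hb e]

/-- the jump field -/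
noncomputable def jf (v : V × V → ℝ) (lv : V × V → ℕ) (M j : ℕ) (e : V × V) : ℝ :=
  2 ^ j * (v e * Th M (j - lv e))

lemma res_jf (κ : V × V → ℝ) (P : V × V → V → ℝ) (v : V × V → ℝ) (lv : V × V → ℕ) (M j : ℕ)
    (e : V × V) :
    res κ P (jf v lv M j) e = 2 ^ j * ww M (fun τ => res κ P (lg v lv τ) e) j := by
  have h : jf v lv M j = fun e => (2 ^ j / M) * ∑ k ∈ range M,
      (lg v lv (j - (M + k)) e - lg v lv (j - (3 * M + k)) e) := by
    funext e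
    rw [jf, Th, ← mul_div_assoc, mul_sum]
    have : ∑ k ∈ range M, v e * ((if M + k < j - lv e then (1 : ℝ) else 0) -
        (if 3 * M + k < j - lv e then 1 else 0)) =
        ∑ k ∈ range M, (lg v lv (j - (M + k)) e - lg v lv (j - (3 * M + k)) e) := by
      refine sum_congr rfl fun k _ => ?_
      unfold lg
      have a1 : (lv e < j - (M + k)) ↔ (M + k < j - lv e) := by omega
      have a2 : (lv e < j - (3 * M + k)) ↔ (3 * M + k < j - lv e) := by omega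
      simp only [a1, a2]
      split_ifs <;> ring
    rw [this]; ring
  rw [h, res_mul, res_sum, ww]
  simp only [res_sub]
  ring

lemma abs_jf_le (v : V × V → ℝ) (lv : V × V → ℕ) (hlv : ∀ e, Lev (v e) (lv e)) (M j : ℕ)
    (e : V × V) : |jf v lv M j e| ≤ 2 ^ (4 * M) := by
  unfold jf
  rcases le_or_gt (4 * M) (j - lv e) with h | h
  · rw [Th_high h]; simp
  · rw [abs_mul, abs_mul, abs_of_pos (by positivity : (0 : ℝ) < 2 ^ j),
      abs_of_nonneg (Th_nonneg _ _)]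
    have h1 : |v e| * Th M (j - lv e) ≤ (1 / 2) ^ lv e :=
      (mul_le_of_le_one_right (abs_nonneg _) (Th_le_one _ _)).trans (hlv e).1
    have h2 : (2 : ℝ) ^ j ≤ 2 ^ (4 * M) * 2 ^ lv e := by
      rw [← pow_add]; exact pow_le_pow_right₀ (by norm_num) (by omega)
    calc _ ≤ (2 ^ (4 * M) * 2 ^ lv e) * (1 / 2) ^ lv e :=
          mul_le_mul h2 h1 (mul_nonneg (abs_nonneg _) (Th_nonneg _ _)) (by positivity)
      _ = _ := by rw [mul_assoc, ← mul_pow]; simp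

lemma sum_jf_rpow {p : ℝ} (hp : 0 < p) (v : V × V → ℝ) (lv : V × V → ℕ) (M J : ℕ) (e : V × V)
    (hJ : lv e + 4 * M ≤ J) :
    ∑ j ∈ range J, ((2 : ℝ) ^ (-p)) ^ j * |jf v lv M j e| ^ p = |v e| ^ p * NN p M := by
  rw [← sum_Th hp M (lv e) J hJ, mul_sum]
  refine sum_congr rfl fun j _ => ?_
  rw [jf, nu_mul_rpow, abs_mul, Real.mul_rpow (abs_nonneg _) (abs_nonneg _),
    abs_of_nonneg (Th_nonneg _ _)]

lemma sum_jf_sq {p : ℝ} (hp : 2 < p) (v : V × V → ℝ) (lv : V × V → ℕ) (M J : ℕ) (e : V × V)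
    (hlv : Lev (v e) (lv e)) :
    ∑ j ∈ range J, ((2 : ℝ) ^ (-p)) ^ j * (jf v lv M j e) ^ 2 ≤
      ((2 : ℝ) ^ (2 - p)) ^ M / (1 - 2 ^ (2 - p)) * |v e| ^ p := by
  have h := hlv.tail (c := p - 2) (g := v e ^ 2) (by linarith) (sq_nonneg _)
    (fun h => by rw [h]; simp) M J
  rw [neg_sub, ← abs_rpow_split hp.le] at h
  refine le_trans (sum_le_sum fun j _ => ?_) h
  rw [jf, nu_mul_sq]
  refine mul_le_mul_of_nonneg_left ?_ (by positivity)
  split_ifs with hj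
  · rw [mul_pow]
    exact mul_le_of_le_one_right (sq_nonneg _) (pow_le_one₀ (Th_nonneg _ _) (Th_le_one _ _))
  · rw [Th_low (by omega)]; simp

lemma sum_jf_ne {p : ℝ} (hp : 0 < p) (v : V × V → ℝ) (lv : V × V → ℕ) (M J : ℕ) (e : V × V)
    (hlv : Lev (v e) (lv e)) :
    ∑ j ∈ range J, ((2 : ℝ) ^ (-p)) ^ j * (if jf v lv M j e = 0 then 0 else 1) ≤
      ((2 : ℝ) ^ (-p)) ^ M / (1 - 2 ^ (-p)) * |v e| ^ p := by
  have h := hlv.tail (c := p) (g := if v e = 0 then 0 else 1) hp (by split_ifs <;> norm_num)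
    (fun h => by rw [if_pos h]) M J
  have h1r : 0 < 1 - (2 : ℝ) ^ (-p) := by linarith [rp_lt_one (c := -p) (by linarith)]
  refine le_trans (sum_le_sum fun j _ => ?_) (h.trans ?_)
  · refine mul_le_mul_of_nonneg_left ?_ (by positivity)
    by_cases h0 : jf v lv M j e = 0
    · rw [if_pos h0]; split_ifs <;> norm_num
    · have a1 : v e ≠ 0 := fun h => h0 (by simp [jf, h])
      have a2 : lv e + M < j := by
        by_contra hc
        exact h0 (by rw [jf, Th_low (by omega)]; simp)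
      rw [if_neg h0, if_pos a2, if_neg a1]
  · refine mul_le_mul_of_nonneg_left ?_ (by positivity)
    split_ifs
    · simp; positivity
    · simp

lemma sum_res_lg_abs {p : ℝ} (hp : 1 < p) (κ : V × V → ℝ) (P : V × V → V → ℝ)
    (v : Ω → V × V → ℝ) (lv : Ω → V × V → ℕ) (hlv : ∀ ω e, Lev (v ω e) (lv ω e))
    (hv : ∀ e, ∑ ω, |v ω e| ^ p ≤ 1) {R : ℝ} (e : V × V)
    (hR : ∑ e', |sig κ (P e') e| ≤ R) (J : ℕ) :
    ∑ ω, ∑ τ ∈ range J, ((2 : ℝ) ^ (1 - p)) ^ τ * |res κ P (lg (v ω) (lv ω) τ) e| ≤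
      (1 + R) * (1 / (1 - 2 ^ (1 - p))) := by
  have h1r : 0 < 1 - (2 : ℝ) ^ (1 - p) := by linarith [rp_lt_one (c := 1 - p) (by linarith)]
  have hb : ∀ e', ∑ ω, ∑ τ ∈ range J, ((2 : ℝ) ^ (1 - p)) ^ τ * |lg (v ω) (lv ω) τ e'| ≤
      1 / (1 - 2 ^ (1 - p)) := by
    intro e'
    calc _ ≤ ∑ ω, 1 / (1 - (2 : ℝ) ^ (1 - p)) * |v ω e'| ^ p := by
          refine sum_le_sum fun ω _ => ?_
          have h := (hlv ω e').tail (c := p - 1) (g := |v ω e'|) (by linarith) (abs_nonneg _)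
            (fun h => by rw [h]; simp) 0 J
          have e1 : |v ω e'| * |v ω e'| ^ (p - 1) = |v ω e'| ^ p := by
            rw [mul_comm, ← Real.rpow_add_one' (abs_nonneg _) (by linarith)]; congr 1; ring
          rw [neg_sub, pow_zero, e1] at h
          refine le_trans (le_of_eq (sum_congr rfl fun τ _ => ?_)) h
          unfold lg
          rw [add_zero]
          split_ifs <;> simp
      _ ≤ _ := by
          rw [← mul_sum]
          exact mul_le_of_le_one_right (by positivity) (hv e')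
  calc _ ≤ ∑ ω, ∑ τ ∈ range J, (((2 : ℝ) ^ (1 - p)) ^ τ * |lg (v ω) (lv ω) τ e| +
        ∑ e', |sig κ (P e') e| * (((2 : ℝ) ^ (1 - p)) ^ τ * |lg (v ω) (lv ω) τ e'|)) := by
        refine sum_le_sum fun ω _ => sum_le_sum fun τ _ => ?_
        have a1 := abs_sub (lg (v ω) (lv ω) τ e) (sig κ (prj P (lg (v ω) (lv ω) τ)) e)
        have a2 := abs_sig_prj_le κ P (lg (v ω) (lv ω) τ) e
        have a3 := mul_le_mul_of_nonneg_left (a1.trans (add_le_add le_rfl a2))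
          (by positivity : 0 ≤ ((2 : ℝ) ^ (1 - p)) ^ τ)
        rw [mul_add, mul_sum] at a3
        refine a3.trans (le_of_eq ?_)
        congr 1
        exact sum_congr rfl fun e' _ => by ring
    _ = ∑ ω, ∑ τ ∈ range J, ((2 : ℝ) ^ (1 - p)) ^ τ * |lg (v ω) (lv ω) τ e| +
        ∑ e', |sig κ (P e') e| * ∑ ω, ∑ τ ∈ range J,
          ((2 : ℝ) ^ (1 - p)) ^ τ * |lg (v ω) (lv ω) τ e'| := by
        simp_rw [sum_add_distrib, mul_sum]
        congr 1
        rw [sum_comm (s := (univ : Finset (V × V)))]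
        refine sum_congr rfl fun ω _ => ?_
        rw [sum_comm]
    _ ≤ 1 / (1 - 2 ^ (1 - p)) + ∑ e', |sig κ (P e') e| * (1 / (1 - 2 ^ (1 - p))) :=
        add_le_add (hb e) (sum_le_sum fun e' _ => mul_le_mul_of_nonneg_left (hb e') (abs_nonneg _))
    _ ≤ _ := by
        rw [← sum_mul]
        have := mul_le_mul_of_nonneg_right hR (by positivity : 0 ≤ 1 / (1 - (2 : ℝ) ^ (1 - p)))
        linarith

lemma sum_prod_fin (J : ℕ) (F : Ω → ℕ → ℝ) :
    ∑ a : Ω × Fin J, F a.1 a.2 = ∑ ω, ∑ j ∈ range J, F ω j := by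
  rw [Fintype.sum_prod_type]
  exact sum_congr rfl fun ω _ => (Finset.sum_range (F ω)).symm

/-- existence of a projection with the weighted square bound -/
lemma exists_proj' {p : ℝ} (hp : 1 < p) (hp2 : p ≠ 2) : ∃ Cb : ℝ, 0 < Cb ∧
    ∀ {V : Type} [Fintype V] [DecidableEq V] {Ω : Type} [Fintype Ω] (hn : 2 ≤ Fintype.card V)
    (κ : V × V → ℝ) (x : Ω → V → ℝ) (lv : Ω → V × V → ℕ)
    (hlv : ∀ ω e, Lev (sig κ (x ω) e) (lv ω e)) (hv : ∀ e, ∑ ω, |sig κ (x ω) e| ^ p ≤ 1) (J : ℕ),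
    ∃ P : V × V → V → ℝ, (∀ ω e, res κ P (sig κ (x ω)) e = 0) ∧
      (∀ e, ∑ e', |sig κ (P e') e| ≤ 24 * Real.log (Fintype.card V)) ∧
      (∀ e, ∑ ω, ∑ τ ∈ range J, ((2 : ℝ) ^ (2 - p)) ^ τ *
        (res κ P (lg (sig κ (x ω)) (lv ω) τ) e) ^ 2 ≤ Cb) := by
  rcases lt_or_gt_of_ne hp2 with hp2 | hp2
  · have hr1 : 1 < (2 : ℝ) ^ (2 - p) := rp_gt_one (by linarith)
    have hC : 0 < (2 : ℝ) ^ (2 - p) / (2 ^ (2 - p) - 1) := div_pos (by linarith) (by linarith)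
    refine ⟨3 * (2 ^ (2 - p) / (2 ^ (2 - p) - 1)), by linarith, ?_⟩
    intro V _ _ Ω _ hn κ x lv hlv hv J
    obtain ⟨P, h1, h2, h3⟩ := exists_proj hn κ
      (fun a : Ω × Fin J => sm (sig κ (x a.1)) (lv a.1) a.2)
      (fun a => ((2 : ℝ) ^ (2 - p)) ^ (a.2 : ℕ)) (fun a => by positivity) _ hC (fun e => by
        rw [sum_prod_fin J (fun ω τ => ((2 : ℝ) ^ (2 - p)) ^ τ *
          sm (sig κ (x ω)) (lv ω) τ e ^ 2)]
        calc _ ≤ ∑ ω, 2 ^ (2 - p) / (2 ^ (2 - p) - 1) * |sig κ (x ω) e| ^ p :=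
              sum_le_sum fun ω _ => (hlv ω e).head (by linarith) hp2 J
          _ ≤ _ := by rw [← mul_sum]; exact mul_le_of_le_one_right hC.le (hv e))
    have h0 : ∀ ω e, res κ P (sig κ (x ω)) e = 0 := fun ω e => by rw [res, h1, sub_self]
    refine ⟨P, h0, h2, fun e => ?_⟩
    have h4 := h3 e
    rw [sum_prod_fin J (fun ω τ => ((2 : ℝ) ^ (2 - p)) ^ τ *
      (sm (sig κ (x ω)) (lv ω) τ e - sig κ (prj P (sm (sig κ (x ω)) (lv ω) τ)) e) ^ 2)] at h4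
    refine le_trans (le_of_eq ?_) h4
    refine sum_congr rfl fun ω _ => sum_congr rfl fun τ _ => ?_
    rw [res_lg_eq κ P _ _ (h0 ω), neg_sq, res]
  · have hr1 : (2 : ℝ) ^ (2 - p) < 1 := rp_lt_one (by linarith)
    have hC : 0 < 1 / (1 - (2 : ℝ) ^ (2 - p)) := div_pos one_pos (by linarith)
    refine ⟨3 * (1 / (1 - (2 : ℝ) ^ (2 - p))), by linarith, ?_⟩
    intro V _ _ Ω _ hn κ x lv hlv hv J
    obtain ⟨P, h1, h2, h3⟩ := exists_proj hn κ
      (fun a : Ω × Fin J => lg (sig κ (x a.1)) (lv a.1) a.2)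
      (fun a => ((2 : ℝ) ^ (2 - p)) ^ (a.2 : ℕ)) (fun a => by positivity) _ hC (fun e => by
        rw [sum_prod_fin J (fun ω τ => ((2 : ℝ) ^ (2 - p)) ^ τ *
          lg (sig κ (x ω)) (lv ω) τ e ^ 2)]
        calc _ ≤ ∑ ω, 1 / (1 - (2 : ℝ) ^ (2 - p)) * |sig κ (x ω) e| ^ p := by
              refine sum_le_sum fun ω _ => ?_
              have h := (hlv ω e).tail (c := p - 2) (g := sig κ (x ω) e ^ 2) (by linarith)
                (sq_nonneg _) (fun h => by rw [h]; simp) 0 J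
              rw [neg_sub, ← abs_rpow_split hp2.le, pow_zero] at h
              refine le_trans (le_of_eq (sum_congr rfl fun τ _ => ?_)) h
              unfold lg
              rw [add_zero]
              split_ifs <;> simp
          _ ≤ _ := by rw [← mul_sum]; exact mul_le_of_le_one_right hC.le (hv e))
    have h0 : ∀ ω e, res κ P (sig κ (x ω)) e = 0 := fun ω e => by rw [res, h1, sub_self]
    refine ⟨P, h0, h2, fun e => ?_⟩
    have h4 := h3 e
    rw [sum_prod_fin J (fun ω τ => ((2 : ℝ) ^ (2 - p)) ^ τ *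
      (lg (sig κ (x ω)) (lv ω) τ e - sig κ (prj P (lg (sig κ (x ω)) (lv ω) τ)) e) ^ 2)] at h4
    exact h4

/-- the cost exponent -/
noncomputable def cost (p R : ℝ) (M : ℕ) : ℝ :=
  if p < 2 then R ^ (2 - p) else R ^ (p - 2) / (M : ℝ) ^ (p - 1)

theorem jumps {p : ℝ} (hp : 1 < p) (hp2 : p ≠ 2) : ∃ C : ℝ, 0 < C ∧
    ∀ {V : Type} [Fintype V] [DecidableEq V] {Ω : Type} [Fintype Ω] (hn : 2 ≤ Fintype.card V)
    (κ : V × V → ℝ) (x : Ω → V → ℝ) (hv : ∀ e, ∑ ω, |sig κ (x ω) e| ^ p ≤ 1)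
    (M : ℕ) (hM : 0 < M),
    ∃ (J : ℕ) (U : Ω → ℕ → V → ℝ) (f : Ω → ℕ → V × V → ℝ),
      (∀ e, ∑ ω, ∑ j ∈ range J, ((2 : ℝ) ^ (-p)) ^ j * |f ω j e| ^ p =
        (∑ ω, |sig κ (x ω) e| ^ p) * NN p M) ∧
      (∀ e, ∑ ω, ∑ j ∈ range J, ((2 : ℝ) ^ (-p)) ^ j * |f ω j e - sig κ (U ω j) e| ^ p ≤
        C * cost p (1 + 24 * Real.log (Fintype.card V)) M) ∧
      (∀ e ω j, |sig κ (U ω j) e| ≤ (1 + 24 * Real.log (Fintype.card V)) * 2 ^ (4 * M)) ∧
      (2 < p → ∀ e, ∑ ω, ∑ j ∈ range J, ((2 : ℝ) ^ (-p)) ^ j * (sig κ (U ω j) e) ^ 2 ≤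
        C * ((2 : ℝ) ^ (2 - p)) ^ M) ∧
      (∀ e, ∑ ω, ∑ j ∈ range J, ((2 : ℝ) ^ (-p)) ^ j * (if f ω j e = 0 then 0 else 1) ≤
        C * ((2 : ℝ) ^ (-p)) ^ M) := by
  obtain ⟨Cb, hCb, hproj⟩ := exists_proj' hp hp2
  obtain ⟨CY, hCY0, hCY⟩ : ∃ C : ℝ, 0 ≤ C ∧ (2 < p → ∀ (R : ℝ) (hR : 0 < R) (h : ℕ → ℝ) (J : ℕ)
      (ha : ∀ τ, |h τ| ≤ R * (1 / 2) ^ τ),
      (∑ τ ∈ range J, |h τ|) ^ p ≤
        C * R ^ (p - 2) * ∑ τ ∈ range J, ((2 : ℝ) ^ (2 - p)) ^ τ * h τ ^ 2) := by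
    by_cases h : 2 < p
    · obtain ⟨C, h1, h2⟩ := Y_bound h
      exact ⟨C, h1, fun _ => h2⟩
    · exact ⟨0, le_rfl, fun h' => absurd h' h⟩
  have h1r : 0 < 1 - (2 : ℝ) ^ (1 - p) := by linarith [rp_lt_one (c := 1 - p) (by linarith)]
  have h0r : 0 < 1 - (2 : ℝ) ^ (-p) := by linarith [rp_lt_one (c := -p) (by linarith)]
  set C1 : ℝ := 2 * 2 ^ p * (1 / (1 - 2 ^ (1 - p)) + Cb) with hC1
  set C2 : ℝ := 2 ^ p * CY * Cb with hC2
  set C3 : ℝ := 2 * |1 / (1 - (2 : ℝ) ^ (2 - p))| + 16 * Cb with hC3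
  set C4 : ℝ := 1 / (1 - 2 ^ (-p)) with hC4
  have hC10 : 0 < C1 := by positivity
  have hC20 : 0 ≤ C2 := by positivity
  have hC30 : 0 ≤ C3 := by positivity
  have hC40 : 0 ≤ C4 := by positivity
  refine ⟨C1 + C2 + C3 + C4, by positivity, ?_⟩
  intro V _ _ Ω _ hn κ x hv M hM
  have hle1 : ∀ ω e, |sig κ (x ω) e| ≤ 1 := by
    intro ω e
    have h1 : |sig κ (x ω) e| ^ p ≤ 1 := le_trans (single_le_sum
      (f := fun ω => |sig κ (x ω) e| ^ p) (fun ω _ => by positivity) (mem_univ ω)) (hv e)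
    by_contra hc
    exact absurd h1 (not_le.2 (Real.one_lt_rpow (not_le.1 hc) (by linarith)))
  choose lv hlv using fun ω e => exists_lev (hle1 ω e)
  set J := (univ.sup fun a : Ω × (V × V) => lv a.1 a.2) + 4 * M with hJ
  have hJ' : ∀ ω e, lv ω e + 4 * M ≤ J := fun ω e =>
    Nat.add_le_add_right (le_sup (f := fun a : Ω × (V × V) => lv a.1 a.2) (mem_univ (ω, e))) _
  obtain ⟨P, h0, hR, hb⟩ := hproj hn κ x lv hlv hv J
  set R := 24 * Real.log (Fintype.card V) with hRdef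
  have hR0 : 0 ≤ R := mul_nonneg (by norm_num) (Real.log_natCast_nonneg _)
  set H : Ω → V × V → ℕ → ℝ := fun ω e τ => res κ P (lg (sig κ (x ω)) (lv ω) τ) e with hH
  have hH0 : ∀ ω e, H ω e 0 = 0 := fun ω e => res_lg_zero _ _ _ _ _
  have hW : ∀ ω j e, jf (sig κ (x ω)) (lv ω) M j e -
      sig κ (prj P (jf (sig κ (x ω)) (lv ω) M j)) e = 2 ^ j * ww M (H ω e) j :=
    fun ω j e => res_jf κ P _ _ M j e
  refine ⟨J, fun ω j => prj P (jf (sig κ (x ω)) (lv ω) M j), fun ω j => jf (sig κ (x ω)) (lv ω) M j,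
    fun e => ?_, fun e => ?_, fun e ω j => ?_, fun hp2' e => ?_, fun e => ?_⟩
  · rw [sum_mul]
    exact sum_congr rfl fun ω _ => sum_jf_rpow (by linarith) _ _ M J e (hJ' ω e)
  · simp only [hW, nu_mul_rpow]
    unfold cost
    split_ifs with hlt
    · have hcost : 0 ≤ (1 + R) ^ (2 - p) := by positivity
      refine le_trans ?_ (mul_le_mul_of_nonneg_right (by linarith : C1 ≤ C1 + C2 + C3 + C4) hcost)
      calc _ ≤ ∑ ω, 2 * 2 ^ p * ∑ τ ∈ range J, ((1 + R) ^ (1 - p) *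
            (((2 : ℝ) ^ (1 - p)) ^ τ * |H ω e τ|) +
            (1 + R) ^ (2 - p) * (((2 : ℝ) ^ (2 - p)) ^ τ * H ω e τ ^ 2)) := by
            refine sum_le_sum fun ω _ => ?_
            have a1 := ww_cost2 hp.le zero_le_one le_rfl hM (H ω e) (hH0 ω e) J
            simp only [one_pow, one_mul, mul_one] at a1
            refine a1.trans (mul_le_mul_of_nonneg_left (sum_le_sum fun τ _ => ?_) (by positivity))
            exact pt_interp' hp.le hlt.le (by linarith) τ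
        _ = 2 * 2 ^ p * ((1 + R) ^ (1 - p) * ∑ ω, ∑ τ ∈ range J,
            ((2 : ℝ) ^ (1 - p)) ^ τ * |H ω e τ| + (1 + R) ^ (2 - p) * ∑ ω, ∑ τ ∈ range J,
            ((2 : ℝ) ^ (2 - p)) ^ τ * H ω e τ ^ 2) := by
            rw [← mul_sum]
            simp_rw [sum_add_distrib, ← mul_sum]
        _ ≤ 2 * 2 ^ p * ((1 + R) ^ (1 - p) * ((1 + R) * (1 / (1 - 2 ^ (1 - p)))) +
            (1 + R) ^ (2 - p) * Cb) := by
            have a1 := sum_res_lg_abs hp κ P (fun ω => sig κ (x ω)) lv hlv hv e (hR e) J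
            have a2 := hb e
            gcongr
        _ = _ := by
            have : (1 + R) ^ (2 - p) = (1 + R) ^ (1 - p) * (1 + R) := by
              rw [← Real.rpow_add_one (by linarith)]; congr 1; ring
            rw [hC1, this]; ring
    · have hp2' : 2 < p := lt_of_le_of_ne (not_lt.1 hlt) (Ne.symm hp2)
      have hM0 : (0 : ℝ) < M := by exact_mod_cast hM
      have hcost : 0 ≤ (1 + R) ^ (p - 2) / (M : ℝ) ^ (p - 1) := by positivity
      refine le_trans ?_ (mul_le_mul_of_nonneg_right (by linarith : C2 ≤ C1 + C2 + C3 + C4) hcost)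
      calc _ ≤ ∑ ω, 2 ^ p * (CY * (1 + R) ^ (p - 2) *
            ∑ τ ∈ range J, ((2 : ℝ) ^ (2 - p)) ^ τ * H ω e τ ^ 2) / (M : ℝ) ^ (p - 1) := by
            refine sum_le_sum fun ω _ => ?_
            refine (ww_cost1 hp.le hM (H ω e) (hH0 ω e) J).trans ?_
            rw [Real.mul_rpow (by norm_num) (sum_nonneg fun _ _ => abs_nonneg _)]
            have a1 := hCY hp2' (1 + R) (by linarith) (H ω e) J
              (fun τ => res_lg_abs κ P _ _ (h0 ω) (hlv ω) e (hR e) τ)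
            gcongr
        _ = 2 ^ p * (CY * (1 + R) ^ (p - 2) *
            ∑ ω, ∑ τ ∈ range J, ((2 : ℝ) ^ (2 - p)) ^ τ * H ω e τ ^ 2) / (M : ℝ) ^ (p - 1) := by
            rw [← sum_div, ← mul_sum, ← mul_sum]
        _ ≤ 2 ^ p * (CY * (1 + R) ^ (p - 2) * Cb) / (M : ℝ) ^ (p - 1) := by
            have a2 := hb e
            gcongr
        _ = _ := by rw [hC2]; ring
  · refine (abs_sig_prj_le' κ P _ e (abs_jf_le _ _ (hlv ω) M j) (hR e)).trans ?_
    exact mul_le_mul_of_nonneg_right (by linarith) (by positivity)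
  · have hr1 : (2 : ℝ) ^ (2 - p) < 1 := rp_lt_one (by linarith)
    have hC : 0 < 1 / (1 - (2 : ℝ) ^ (2 - p)) := div_pos one_pos (by linarith)
    refine le_trans ?_ (mul_le_mul_of_nonneg_right (by linarith : C3 ≤ C1 + C2 + C3 + C4)
      (by positivity))
    calc _ ≤ ∑ ω, (2 * (((2 : ℝ) ^ (2 - p)) ^ M / (1 - 2 ^ (2 - p)) * |sig κ (x ω) e| ^ p) +
          2 * (8 * ((2 : ℝ) ^ (2 - p)) ^ M *
            ∑ τ ∈ range J, ((2 : ℝ) ^ (2 - p)) ^ τ * H ω e τ ^ 2)) := by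
          refine sum_le_sum fun ω _ => ?_
          have a1 := sum_jf_sq hp2' (sig κ (x ω)) (lv ω) M J e (hlv ω e)
          have a2 := ww_cost2 (q := 2) (ρ := 2 ^ (2 - p)) (by norm_num) (by positivity) hr1.le hM
            (H ω e) (hH0 ω e) J
          simp only [Real.rpow_two, sq_abs] at a2
          calc _ ≤ ∑ j ∈ range J, (2 * (((2 : ℝ) ^ (-p)) ^ j *
                (jf (sig κ (x ω)) (lv ω) M j e) ^ 2) +
                2 * (((2 : ℝ) ^ (2 - p)) ^ j * ww M (H ω e) j ^ 2)) := by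
                refine sum_le_sum fun j _ => ?_
                rw [← nu_mul_sq, ← hW]
                have : 0 ≤ ((2 : ℝ) ^ (-p)) ^ j := by positivity
                generalize jf (sig κ (x ω)) (lv ω) M j e = a
                generalize sig κ (prj P (jf (sig κ (x ω)) (lv ω) M j)) e = b
                nlinarith [mul_nonneg this (sq_nonneg (2 * a - b))]
            _ ≤ _ := by
                rw [sum_add_distrib, ← mul_sum, ← mul_sum]
                linarith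
      _ = 2 * (((2 : ℝ) ^ (2 - p)) ^ M / (1 - 2 ^ (2 - p)) * ∑ ω, |sig κ (x ω) e| ^ p) +
          2 * (8 * ((2 : ℝ) ^ (2 - p)) ^ M *
            ∑ ω, ∑ τ ∈ range J, ((2 : ℝ) ^ (2 - p)) ^ τ * H ω e τ ^ 2) := by
          rw [sum_add_distrib, ← mul_sum, ← mul_sum, ← mul_sum, ← mul_sum]
      _ ≤ 2 * (((2 : ℝ) ^ (2 - p)) ^ M / (1 - 2 ^ (2 - p)) * 1) +
          2 * (8 * ((2 : ℝ) ^ (2 - p)) ^ M * Cb) := by
          have a1 := hv e
          have a2 := hb e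
          have a3 : 0 < 1 - (2 : ℝ) ^ (2 - p) := by linarith
          gcongr
      _ = _ := by rw [hC3, abs_of_pos hC]; ring
  · refine le_trans ?_ (mul_le_mul_of_nonneg_right (by linarith : C4 ≤ C1 + C2 + C3 + C4)
      (by positivity))
    calc _ ≤ ∑ ω, ((2 : ℝ) ^ (-p)) ^ M / (1 - 2 ^ (-p)) * |sig κ (x ω) e| ^ p :=
          sum_le_sum fun ω _ => sum_jf_ne (by linarith) _ _ M J e (hlv ω e)
      _ ≤ ((2 : ℝ) ^ (-p)) ^ M / (1 - 2 ^ (-p)) := by
          rw [← mul_sum]; exact mul_le_of_le_one_right (by positivity) (hv e)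
      _ = _ := by rw [hC4]; ring

end Crest.Agent.H7.Dr
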