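import Crest.Agent.H7.DrE

set_option autoImplicit false
set_option linter.unusedSectionVars false
set_option linter.unusedVariables false

open Finset

namespace Crest.Agent.H7.Dr

def sigH {V : Type*} (κ : V × V → ℝ) (e : V × V) : (V → ℝ) →+ ℝ where
  toFun u := κ e * (u e.1 - u e.2)
  map_zero' := by simp
  map_add' u w := by simp only [Pi.add_apply]; ring

lemma sigH_apply {V : Type*} [Fintype V] [DecidableEq V] (κ : V × V → ℝ) (e : V × V)
    (u : V → ℝ) : sigH κ e u = sig κ u e := rfl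

lemma sq_le_of_abs_le {p B y : ℝ} (hp0 : 0 < p) (hp : p ≤ 2) (hB : 1 ≤ B) (hy : |y| ≤ B) :
    y ^ 2 ≤ B ^ 2 * |y| ^ p := by
  have hB2 : 1 ≤ B ^ 2 := one_le_pow₀ hB
  rcases le_total |y| 1 with h | h
  · have h1 : |y| ^ (2 : ℝ) ≤ |y| ^ p :=
      Real.rpow_le_rpow_of_exponent_ge' (abs_nonneg _) h hp0.le hp
    rw [Real.rpow_two, sq_abs] at h1
    nlinarith [Real.rpow_nonneg (abs_nonneg y) p]
  · have h1 : 1 ≤ |y| ^ p := Real.one_le_rpow h hp0.le
    have h2 : y ^ 2 ≤ B ^ 2 := by rw [← sq_abs]; exact pow_le_pow_left₀ (abs_nonneg _) hy 2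
    nlinarith

/-- merging the jumps, for one pair -/
lemma merge {p ε : ℝ} (hp : 1 < p) (hp2 : p ≠ 2) (hε : 0 < ε) (hε1 : ε ≤ 1 / 10) :
    ∃ c : ℝ, 0 < c ∧ c ≤ ε ∧ ∀ {ι X : Type} [Fintype ι] [AddCommGroup X] (ν : ι → ℝ) (U : ι → X)
      (hν : ∀ a, 0 ≤ ν a ∧ ν a ≤ 1) (T : X →+ ℝ) (f : ι → ℝ) (N N' : ℝ) (hN : 1 ≤ N)
      (hN' : N' ≤ N)
      (h1 : ∑ a, ν a * |f a| ^ p = N') (h2 : ∑ a, ν a * |f a - T (U a)| ^ p ≤ c * N)
      (h3 : 2 < p → ∑ a, ν a * (T (U a)) ^ 2 ≤ c)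
      (h4 : ∑ a, ν a * (if f a = 0 then 0 else 1) ≤ c),
      ∑ a, ν a * |T (U a)| ^ p ≤ (1 + 2 * ε) * N ∧
      (N' = N → (1 - 4 * ε) * N ≤ Ex ν U univ.toList (fun u => |T u| ^ p) ∧
        Ex ν U univ.toList (fun u => |T u| ^ p) ≤ (1 + 6 * ε) * N) := by
  set δ : ℝ := (1 + ε) ^ (1 / p) - 1 with hδ
  have hδ0 : 0 < δ := by
    have := Real.one_lt_rpow (x := 1 + ε) (z := 1 / p) (by linarith) (by positivity)
    linarith
  have hδp : (1 + δ) ^ p = 1 + ε := by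
    rw [hδ, add_sub_cancel, ← Real.rpow_mul (by linarith), one_div_mul_cancel (by linarith),
      Real.rpow_one]
  set Cδ := (1 + 1 / δ) ^ p with hCδ
  have hδi : 0 < 1 / δ := by positivity
  have hCδ1 : 1 ≤ Cδ := Real.one_le_rpow (x := 1 + 1 / δ) (by linarith) (by linarith)
  obtain ⟨C4, hC40, hC4⟩ : ∃ C : ℝ, 0 ≤ C ∧ (2 < p → ∀ a y : ℝ,
      (|a + y| ^ p + |a - y| ^ p) / 2 - |a| ^ p ≤
        (1 + ε) * |y| ^ p + C * y ^ 2 * (1 + |a| ^ p)) := by
    by_cases h : 2 < p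
    · obtain ⟨C, h1, h2⟩ := I4 h.le hδ0
      exact ⟨C, h1, fun _ => by rw [← hδp]; exact h2⟩
    · exact ⟨0, le_rfl, fun h' => absurd h' h⟩
  set c := ε / (Cδ + C4) with hc
  have hc0 : 0 < c := by positivity
  have hcδ : Cδ * c ≤ ε := by
    rw [hc, ← mul_div_assoc, div_le_iff₀ (by positivity)]; nlinarith
  have hc4 : C4 * c ≤ ε := by
    rw [hc, ← mul_div_assoc, div_le_iff₀ (by positivity)]; nlinarith
  have hcε : c ≤ ε := by nlinarith
  refine ⟨c, hc0, hcε, ?_⟩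
  intro ι X _ _ ν U hν T f N N' hN hN' h1 h2 h3 h4
  set Ny := ∑ a, ν a * |T (U a)| ^ p with hNy
  set W := ∑ a, ν a * |f a - T (U a)| ^ p with hW
  have hW' : Cδ * W ≤ ε * N := by
    have := mul_le_mul_of_nonneg_left h2 (by linarith : 0 ≤ Cδ)
    nlinarith
  have hu : Ny ≤ (1 + ε) * N' + Cδ * W := by
    rw [← h1, hW, mul_sum, mul_sum, ← sum_add_distrib]
    refine sum_le_sum fun a _ => ?_
    have := I5 (p := p) (by linarith) hδ0 (f a) (-(f a - T (U a)))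
    rw [abs_neg, hδp, show f a + -(f a - T (U a)) = T (U a) by ring] at this
    nlinarith [mul_le_mul_of_nonneg_left this (hν a).1]
  have hl : N' ≤ (1 + ε) * Ny + Cδ * W := by
    rw [← h1, hW, hNy, mul_sum, mul_sum, ← sum_add_distrib]
    refine sum_le_sum fun a _ => ?_
    have := I5 (p := p) (by linarith) hδ0 (T (U a)) (f a - T (U a))
    rw [hδp, show T (U a) + (f a - T (U a)) = f a by ring] at this
    nlinarith [mul_le_mul_of_nonneg_left this (hν a).1]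
  have hNyu : Ny ≤ (1 + 2 * ε) * N := by nlinarith
  refine ⟨hNyu, fun hNN => ?_⟩
  subst hNN
  have hNyl : (1 - 2 * ε) * N' ≤ Ny := by
    by_contra hcon
    push Not at hcon
    nlinarith [mul_lt_mul_of_pos_left hcon (by linarith : 0 < 1 + ε), mul_pos hε hε,
      mul_pos (mul_pos hε hε) (by linarith : 0 < N')]
  have hg : ∀ t y : ℝ, |t| ^ p ≤ (|t + y| ^ p + |t - y| ^ p) / 2 := I1 hp.le
  have hg0 : |(0 : ℝ)| ^ p = 0 := by rw [abs_zero, Real.zero_rpow (by linarith)]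
  set m := Ex ν U univ.toList (fun u => |T u| ^ p) with hm
  rcases lt_or_gt_of_ne hp2 with hlt | hgt
  · have a1 := (mom_le (U := U) hν T (fun t => |t| ^ p) hg0 hg (fun a => |T (U a)| ^ p)
      (fun _ => 0) (fun _ => le_rfl) (fun a t => by
        have := I2 (p := p) (by linarith) hlt.le t (T (U a))
        linarith) univ.toList).1
    obtain ⟨a2, a3, a4⟩ := mom_ge (U := U) hν T (fun t => |t| ^ p) hg0.ge hg
      (fun a => |T (U a)| ^ p - |f a - T (U a)| ^ p)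
      (fun a => if f a = 0 then 0 else 1) (fun a => by split_ifs <;> norm_num) (fun a t => by
        have b1 := I1' hp.le t (T (U a))
        have b2 := hg t (T (U a))
        have b3 : 0 ≤ |f a - T (U a)| ^ p := by positivity
        split_ifs with h
        · rw [h, zero_sub, abs_neg]; linarith
        · linarith) univ.toList
    rw [Finset.sum_map_toList] at a1 a2 a4
    rw [Finset.sum_map_toList] at a1 a2
    simp only [mul_zero, sum_const_zero, zero_mul, add_zero] at a1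
    simp only [mul_sub, sum_sub_distrib] at a2
    rw [← hm] at a1 a2 a3
    rw [← hNy] at a1 a2
    rw [← hW] at a2
    constructor
    · have b1 : (1 - 3 * ε) * N' ≤ (1 + ε) * m := by nlinarith
      by_contra hcon
      push Not at hcon
      nlinarith [mul_lt_mul_of_pos_left hcon (by linarith : 0 < 1 + ε),
        mul_pos (mul_pos hε hε) (by linarith : 0 < N')]
    · nlinarith
  · obtain ⟨a2, a3, a4⟩ := mom_ge (U := U) hν T (fun t => |t| ^ p) hg0.ge hg
      (fun a => |T (U a)| ^ p) (fun a => 0) (fun a => le_rfl) (fun a t => by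
        have := I3 hgt.le t (T (U a))
        linarith) univ.toList
    have a1 := (mom_le (U := U) hν T (fun t => |t| ^ p) hg0 hg
      (fun a => (1 + ε) * |T (U a)| ^ p + C4 * (T (U a)) ^ 2)
      (fun a => C4 * (T (U a)) ^ 2) (fun _ => by positivity) (fun a t => by
        have := hC4 hgt t (T (U a))
        linarith) univ.toList).1
    rw [Finset.sum_map_toList, Finset.sum_map_toList] at a1 a2
    simp only [mul_zero, sum_const_zero, add_zero, one_mul] at a2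
    have e1 : ∑ a, ν a * (C4 * (T (U a)) ^ 2) = C4 * ∑ a, ν a * (T (U a)) ^ 2 := by
      rw [mul_sum]; exact sum_congr rfl fun a _ => by ring
    have e2 : ∑ a, ν a * ((1 + ε) * |T (U a)| ^ p + C4 * (T (U a)) ^ 2) =
        (1 + ε) * Ny + C4 * ∑ a, ν a * (T (U a)) ^ 2 := by
      rw [hNy, mul_sum, mul_sum, ← sum_add_distrib]; exact sum_congr rfl fun a _ => by ring
    rw [e1, e2, ← hm] at a1
    rw [← hm] at a2 a3
    rw [← hNy] at a2
    have b0 : C4 * ∑ a, ν a * (T (U a)) ^ 2 ≤ ε :=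
      (mul_le_mul_of_nonneg_left (h3 hgt) hC40).trans hc4
    generalize C4 * ∑ a, ν a * (T (U a)) ^ 2 = q at a1 b0
    constructor
    · nlinarith
    · have b1 : (1 - ε) * m ≤ (1 + 4 * ε + 2 * ε ^ 2) * N' := by
        nlinarith [mul_le_mul_of_nonneg_right b0 a3,
          mul_le_mul_of_nonneg_left hNyu (by linarith : 0 ≤ 1 + ε)]
      by_contra hcon
      push Not at hcon
      nlinarith [mul_lt_mul_of_pos_left hcon (by linarith : 0 < 1 - ε),
        mul_nonneg (mul_pos hε (by linarith : 0 < N')).le (by linarith : 0 ≤ 1 - 8 * ε)]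

lemma exists_pow_small {r C c : ℝ} (hr0 : 0 ≤ r) (hr : r < 1) (hC : 0 < C) (hc : 0 < c) :
    ∃ M0 : ℕ, ∀ M, M0 ≤ M → C * r ^ M ≤ c := by
  obtain ⟨M0, hM0⟩ := exists_pow_lt_of_lt_one (div_pos hc hC) hr
  refine ⟨M0, fun M hM => ?_⟩
  have h1 : r ^ M ≤ c / C := (pow_le_pow_of_le_one hr0 hr.le hM).trans hM0.le
  rwa [le_div_iff₀ hC, mul_comm] at h1

lemma le_exp_mul {c M : ℝ} (hc : 0 ≤ c) (hM : 1 ≤ M) : c ≤ Real.exp (c * M) := by
  have := Real.add_one_le_exp (c * M)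
  nlinarith

lemma size_bound {p ε : ℝ} (hp : 1 < p) (hε : 0 < ε) (hε1 : ε ≤ 1) : ∃ C2 : ℝ, 0 < C2 ∧
    ∀ (M : ℕ) (R Lg B : ℝ) (hM : 0 < M) (hR : R ≤ Real.exp M) (hLg0 : 0 ≤ Lg) (hLg : Lg ≤ R)
      (hB1 : 1 ≤ B) (hB : B = R * 2 ^ (4 * M)),
      4 * ((2 * B * (5 * M + (Lg + Real.log ((2 * p) ^ p * B ^ p / ε)))) ^ p) ^ 2 * Lg / ε ^ 2 + 1 ≤
        Real.exp (C2 * M) := by
  set c0 := Real.log ((2 * p) ^ p / ε) with hc0
  have h2p : 1 ≤ (2 * p) ^ p := Real.one_le_rpow (by linarith) (by linarith)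
  have hc00 : 0 ≤ c0 := Real.log_nonneg (by rw [le_div_iff₀ hε]; linarith)
  set c1 := 2 * (6 + c0 + 5 * p) with hc1
  have hc10 : 0 < c1 := by positivity
  set c2 := 4 * (c1 ^ p) ^ 2 / ε ^ 2 + 1 with hc2
  have hc20 : 0 < c2 := by positivity
  refine ⟨c2 + (12 * p + 1), by positivity, fun M R Lg B hM hR hLg0 hLg hB1 hB => ?_⟩
  have hM1 : (1 : ℝ) ≤ M := by exact_mod_cast hM
  have hE1 : 1 ≤ Real.exp M := Real.one_le_exp (by linarith)
  have hME : (M : ℝ) ≤ Real.exp M := by linarith [Real.add_one_le_exp (M : ℝ)]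
  have hBe : B ≤ Real.exp (5 * M) := by
    have a1 : (2 : ℝ) ^ (4 * M) ≤ Real.exp (4 * M) := by
      have : (2 : ℝ) ≤ Real.exp 1 := by linarith [Real.add_one_le_exp (1 : ℝ)]
      calc (2 : ℝ) ^ (4 * M) ≤ Real.exp 1 ^ (4 * M) := pow_le_pow_left₀ (by norm_num) this _
        _ = _ := by rw [← Real.exp_nat_mul]; push_cast; ring_nf
    rw [hB, show (5 : ℝ) * M = M + 4 * M by ring, Real.exp_add]
    exact mul_le_mul hR a1 (by positivity) (by positivity)
  have hlog : Real.log ((2 * p) ^ p * B ^ p / ε) = c0 + p * Real.log B := by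
    rw [hc0, mul_div_right_comm, Real.log_mul (by positivity) (by positivity),
      Real.log_rpow (by linarith : 0 < B)]
  have hlB0 : 0 ≤ Real.log B := Real.log_nonneg hB1
  have hlB : Real.log B ≤ 5 * M := by
    rw [Real.log_le_iff_le_exp (by linarith)]; exact hBe
  have hΛ0 : 0 ≤ 5 * M + (Lg + Real.log ((2 * p) ^ p * B ^ p / ε)) := by
    rw [hlog]; positivity
  have hΛ : 5 * M + (Lg + Real.log ((2 * p) ^ p * B ^ p / ε)) ≤
      (6 + c0 + 5 * p) * Real.exp M := by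
    rw [hlog]
    have a1 := mul_le_mul_of_nonneg_left hlB (by linarith : 0 ≤ p)
    have a2 := mul_le_mul_of_nonneg_left hME (by linarith : 0 ≤ 5 * p)
    have a3 := mul_le_mul_of_nonneg_left hE1 hc00
    linarith
  have hT' : 2 * B * (5 * M + (Lg + Real.log ((2 * p) ^ p * B ^ p / ε))) ≤
      c1 * Real.exp (6 * M) := by
    calc _ ≤ 2 * Real.exp (5 * M) * ((6 + c0 + 5 * p) * Real.exp M) :=
          mul_le_mul (by linarith) hΛ hΛ0 (by positivity)
      _ = _ := by rw [show (6 : ℝ) * M = 5 * M + M by ring, Real.exp_add, hc1]; ring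
  have hT : (2 * B * (5 * M + (Lg + Real.log ((2 * p) ^ p * B ^ p / ε)))) ^ p ≤
      c1 ^ p * Real.exp (6 * M * p) := by
    rw [Real.exp_mul, ← Real.mul_rpow hc10.le (by positivity)]
    exact Real.rpow_le_rpow (by positivity) hT' (by linarith)
  have hT0 : 0 ≤ (2 * B * (5 * M + (Lg + Real.log ((2 * p) ^ p * B ^ p / ε)))) ^ p := by
    positivity
  generalize (2 * B * (5 * M + (Lg + Real.log ((2 * p) ^ p * B ^ p / ε)))) ^ p = T at hT hT0
  have hE2 : 1 ≤ Real.exp ((12 * p + 1) * M) := Real.one_le_exp (by positivity)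
  calc 4 * T ^ 2 * Lg / ε ^ 2 + 1 ≤
        4 * (c1 ^ p * Real.exp (6 * M * p)) ^ 2 * Real.exp M / ε ^ 2 +
          Real.exp ((12 * p + 1) * M) := by
        have := hLg.trans hR
        gcongr
    _ = c2 * Real.exp ((12 * p + 1) * M) := by
        rw [show (12 * p + 1) * M = 6 * M * p + 6 * M * p + M by ring, Real.exp_add,
          Real.exp_add, hc2]
        ring
    _ ≤ Real.exp (c2 * M) * Real.exp ((12 * p + 1) * M) :=
        mul_le_mul_of_nonneg_right (le_exp_mul hc20.le hM1) (by positivity)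
    _ = _ := by rw [← Real.exp_add]; ring_nf

lemma final_arith {ε d N m1 m2 S : ℝ} (hε : 0 < ε) (hd0 : 0 < d) (hN : 1 ≤ N)
    (b1 : (1 - 4 * ε) * N ≤ m1) (b2 : m1 ≤ (1 + 6 * ε) * N) (b3 : m2 ≤ m1) (b4 : m1 ≤ m2 + ε)
    (b5 : -(ε * d) ≤ S - d * m2) (b6 : S - d * m2 ≤ ε * d) :
    (1 - 6 * ε) * (d * N) ≤ S ∧ S ≤ (1 + 7 * ε) * (d * N) := by
  have c1 : (1 - 5 * ε) * N ≤ m2 := by nlinarith
  have c2 : m2 ≤ (1 + 6 * ε) * N := by linarith
  have c3 := mul_le_mul_of_nonneg_left c1 hd0.le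
  have c4 := mul_le_mul_of_nonneg_left c2 hd0.le
  have c5 : ε * d ≤ ε * d * N := le_mul_of_one_le_right (by positivity) hN
  constructor <;> nlinarith

theorem core {p ε : ℝ} (hp : 1 < p) (hp2 : p ≠ 2) (hε : 0 < ε) (hε1 : ε ≤ 1 / 10) :
    ∃ C1 C2 : ℝ, 1 ≤ C1 ∧ 0 < C2 ∧
    ∀ {V : Type} [Fintype V] [DecidableEq V] {Ω : Type} [Fintype Ω] (hn : 2 ≤ Fintype.card V)
    (κ : V × V → ℝ) (x : Ω → V → ℝ) (hv : ∀ e, ∑ ω, |sig κ (x ω) e| ^ p ≤ 1)
    (M : ℕ) (hM1 : C1 ≤ M) (hM2 : C1 * cost p (1 + 24 * Real.log (Fintype.card V)) M ≤ M)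
    (hM3 : 1 + 24 * Real.log (Fintype.card V) ≤ Real.exp M),
    ∃ d : ℕ, (d : ℝ) ≤ Real.exp (C2 * M) ∧ ∃ (u : Fin d → V → ℝ) (s : ℝ), 0 < s ∧
      ∀ e, ∑ ω, |sig κ (x ω) e| ^ p = 1 →
        (1 - 6 * ε) * s ≤ ∑ k, |sig κ (u k) e| ^ p ∧
          ∑ k, |sig κ (u k) e| ^ p ≤ (1 + 7 * ε) * s := by
  obtain ⟨c, hc0, hcε, hmerge⟩ := merge hp hp2 hε hε1
  obtain ⟨C, hC, hjumps⟩ := jumps hp hp2
  obtain ⟨C2, hC2, hsize⟩ := size_bound hp hε (by linarith)
  obtain ⟨M1, hM1'⟩ := exists_pow_small (r := 2 ^ (-p)) (by positivity)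
    (rp_lt_one (by linarith)) hC hc0
  obtain ⟨M2, hM2'⟩ : ∃ M0 : ℕ, 2 < p → ∀ M, M0 ≤ M → C * ((2 : ℝ) ^ (2 - p)) ^ M ≤ c := by
    by_cases h : 2 < p
    · obtain ⟨M0, h0⟩ := exists_pow_small (r := 2 ^ (2 - p)) (by positivity)
        (rp_lt_one (by linarith)) hC hc0
      exact ⟨M0, fun _ => h0⟩
    · exact ⟨0, fun h' => absurd h' h⟩
  have hCc : 0 < C / c := by positivity
  refine ⟨1 + M1 + M2 + C / c, C2, by linarith [(Nat.cast_nonneg M1 : (0 : ℝ) ≤ M1),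
    (Nat.cast_nonneg M2 : (0 : ℝ) ≤ M2)], hC2, ?_⟩
  intro V _ _ Ω _ hn κ x hv M hM1 hM2 hM3
  have hm1 : (0 : ℝ) ≤ M1 := Nat.cast_nonneg _
  have hm2 : (0 : ℝ) ≤ M2 := Nat.cast_nonneg _
  have hMr : (1 : ℝ) ≤ M := by linarith
  have hM : 0 < M := by exact_mod_cast (by linarith : (0 : ℝ) < M)
  have hMM1 : M1 ≤ M := by exact_mod_cast (by linarith : (M1 : ℝ) ≤ M)
  have hMM2 : M2 ≤ M := by exact_mod_cast (by linarith : (M2 : ℝ) ≤ M)
  obtain ⟨J, U, f, h1, h2, h3, h4, h5⟩ := hjumps hn κ x hv M hM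
  set L := Real.log (Fintype.card V) with hL
  have hn' : (2 : ℝ) ≤ Fintype.card V := by exact_mod_cast hn
  have hL0 : 0 ≤ L := Real.log_natCast_nonneg _
  set R := 1 + 24 * L with hR
  set N := NN p M with hN
  have hN1 : (M : ℝ) ≤ N := le_NN p hM
  have hN2 : N ≤ 4 * M := NN_le (by linarith) M
  set B := R * 2 ^ (4 * M) with hB
  have hB1 : 1 ≤ B := one_le_mul_of_one_le_of_one_le (by linarith) (one_le_pow₀ (by norm_num))
  set ν : Ω × Fin J → ℝ := fun a => ((2 : ℝ) ^ (-p)) ^ (a.2 : ℕ) with hν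
  set U' : Ω × Fin J → V → ℝ := fun a => U a.1 a.2 with hU'
  have hν01 : ∀ a, 0 ≤ ν a ∧ ν a ≤ 1 := fun a =>
    ⟨by positivity, pow_le_one₀ (by positivity) (rp_lt_one (by linarith)).le⟩
  have hcost0 : 0 ≤ cost p R M := by unfold cost; split_ifs <;> positivity
  have hcost : C * cost p R M ≤ c * N := by
    have a1 : C / c * cost p R M ≤ M := le_trans (mul_le_mul_of_nonneg_right (by linarith) hcost0) hM2
    have a2 := mul_le_mul_of_nonneg_left (a1.trans hN1) hc0.le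
    rwa [← mul_assoc, mul_div_cancel₀ _ hc0.ne'] at a2
  have hV2 : 2 < p → ∀ e, ∑ a, ν a * (sigH κ e (U' a)) ^ 2 ≤ c := by
    intro h e
    have := sum_prod_fin J (fun ω j => ((2 : ℝ) ^ (-p)) ^ j * (sig κ (U ω j) e) ^ 2)
    exact (le_of_eq this).trans ((h4 h e).trans (hM2' h M hMM2))
  have hme : ∀ e, ∑ a, ν a * |sigH κ e (U' a)| ^ p ≤ (1 + 2 * ε) * N ∧
      ((∑ ω, |sig κ (x ω) e| ^ p) * N = N →
        (1 - 4 * ε) * N ≤ Ex ν U' univ.toList (fun u => |sigH κ e u| ^ p) ∧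
        Ex ν U' univ.toList (fun u => |sigH κ e u| ^ p) ≤ (1 + 6 * ε) * N) := by
    intro e
    refine hmerge ν U' hν01 (sigH κ e) (fun a => f a.1 a.2 e) N _ (by linarith)
      (mul_le_of_le_one_left (by linarith) (hv e)) ?_ ?_ (fun h => hV2 h e) ?_
    · exact (sum_prod_fin J (fun ω j => ((2 : ℝ) ^ (-p)) ^ j * |f ω j e| ^ p)).trans (h1 e)
    · exact (le_of_eq (sum_prod_fin J (fun ω j => ((2 : ℝ) ^ (-p)) ^ j *
        |f ω j e - sig κ (U ω j) e| ^ p))).trans ((h2 e).trans hcost)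
    · exact (le_of_eq (sum_prod_fin J (fun ω j => ((2 : ℝ) ^ (-p)) ^ j *
        (if f ω j e = 0 then 0 else 1)))).trans ((h5 e).trans (hM1' M hMM1))
  have hy : ∀ e a, |sigH κ e (U' a)| ≤ B := fun e a => h3 e a.1 a.2
  have hV : ∀ e, (univ.toList.map fun a => ν a * (sigH κ e (U' a)) ^ 2).sum ≤ B ^ 2 * (5 * M) := by
    intro e
    rw [Finset.sum_map_toList]
    have hB2 : 1 ≤ B ^ 2 := one_le_pow₀ hB1
    rcases lt_or_gt_of_ne hp2 with hlt | hgt
    · calc _ ≤ ∑ a, B ^ 2 * (ν a * |sigH κ e (U' a)| ^ p) := by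
            refine sum_le_sum fun a _ => ?_
            have := mul_le_mul_of_nonneg_left
              (sq_le_of_abs_le (by linarith) hlt.le hB1 (hy e a)) (hν01 a).1
            linarith
        _ ≤ _ := by
            rw [← mul_sum]
            refine mul_le_mul_of_nonneg_left ((hme e).1.trans ?_) (by positivity)
            nlinarith
    · refine (hV2 hgt e).trans ?_
      nlinarith
  have hVne : Nonempty V := Fintype.card_pos_iff.1 (by omega)
  have hcard : (Fintype.card (V × V) : ℝ) = (Fintype.card V : ℝ) ^ 2 := by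
    rw [Fintype.card_prod]; push_cast; ring
  set Lg := Real.log (2 * Fintype.card (V × V)) with hLg
  have hLg1 : Lg = Real.log 2 + 2 * L := by
    rw [hLg, hcard, Real.log_mul (by norm_num) (by positivity), Real.log_pow]; norm_num [hL]
  have hlog2 : Real.log 2 ≤ 1 := by linarith [Real.log_two_lt_d9]
  have hlog2' : 0 < Real.log 2 := Real.log_pos (by norm_num)
  have hLg0 : 0 < Lg := by rw [hLg1]; linarith
  have hLgR : Lg ≤ R := by rw [hLg1, hR]; linarith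
  set A0 := (2 * p) ^ p * B ^ p / ε with hA0
  have hA01 : 1 ≤ A0 := by
    rw [hA0, le_div_iff₀ hε]
    have a1 : 1 ≤ (2 * p) ^ p := Real.one_le_rpow (by linarith) (by linarith)
    have a2 : 1 ≤ B ^ p := Real.one_le_rpow hB1 (by linarith)
    nlinarith
  have hlA0 : 0 ≤ Real.log A0 := Real.log_nonneg hA01
  set T' := 2 * B * (5 * M + (Lg + Real.log A0)) with hT'
  have hT'1 : 1 ≤ T' := by
    rw [hT']; exact one_le_mul_of_one_le_of_one_le (by linarith) (by linarith)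
  have hloss : 2 * Fintype.card (V × V) * ((2 * p) ^ p * B ^ p *
      Real.exp (5 * M - T' / (2 * B))) = ε := by
    have a1 : 5 * M - T' / (2 * B) = - (Lg + Real.log A0) := by
      rw [hT']; field_simp; ring
    have a2 : (0 : ℝ) < 2 * Fintype.card (V × V) := by rw [hcard]; positivity
    rw [a1, Real.exp_neg, Real.exp_add, hLg, Real.exp_log a2, Real.exp_log (by linarith), hA0]
    field_simp
  have htr := fun e => trunc_loss (U := U') (T' := T') hν01 univ.toList (fun e => sigH κ e)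
    (by linarith : 0 < p) (by linarith : 0 < B) hy hV e
  simp only [hloss] at htr
  set d := ⌈4 * (T' ^ p) ^ 2 * Lg / ε ^ 2⌉₊ with hd
  have hT1 : 1 ≤ T' ^ p := Real.one_le_rpow hT'1 (by linarith)
  have hd1 : 4 * (T' ^ p) ^ 2 * Lg / ε ^ 2 ≤ d := Nat.le_ceil _
  have hd0 : (0 : ℝ) < d := lt_of_lt_of_le (by positivity) hd1
  obtain ⟨us, hus⟩ := sampling (U := U') hν01 univ.toList
    (fun e u => |sigH κ e (trunc (fun e => sigH κ e) T' u)| ^ p) (T' ^ p) hT1
    (fun e u => by positivity)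
    (fun e u => Real.rpow_le_rpow (abs_nonneg _) (trunc_le _ (by linarith) u e) (by linarith))
    ε hε (by linarith) d (by rw [div_le_iff₀ (by positivity)] at hd1; linarith)
  refine ⟨d, ?_, fun k => trunc (fun e => sigH κ e) T' (us k), d * N, by
    exact mul_pos hd0 (by linarith), fun e he => ?_⟩
  · refine le_trans ?_ (hsize M R Lg B hM hM3 hLg0.le hLgR hB1 rfl)
    exact (Nat.ceil_lt_add_one (by positivity)).le
  · obtain ⟨b1, b2⟩ := (hme e).2 (by rw [he, one_mul])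
    obtain ⟨b3, b4⟩ := htr e
    obtain ⟨b5, b6⟩ := abs_le.1 (hus e)
    simp only [sigH_apply] at b1 b2 b3 b4 b5 b6
    generalize Ex ν U' univ.toList (fun u => |sig κ u e| ^ p) = m1 at b1 b2 b3 b4
    generalize Ex ν U' univ.toList
      (fun u => |sig κ (trunc (fun e => sigH κ e) T' u) e| ^ p) = m2 at b3 b4 b5 b6
    exact final_arith hε hd0 (hMr.trans hN1) b1 b2 b3 b4 b5 b6

end Crest.Agent.H7.Dr
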