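import Crest.Agent.H7.DrF

set_option autoImplicit false
set_option linter.unusedSectionVars false
set_option linter.unusedVariables false

open Finset MeasureTheory
open scoped ENNReal

namespace Crest.Agent.H7.Dr

noncomputable def gam (p : ℝ) : ℝ := if p < 2 then 2 - p else 1 - 2 / p

lemma gam_pos {p : ℝ} (hp : 1 < p) (hp2 : p ≠ 2) : 0 < gam p := by
  unfold gam
  split_ifs with h
  · linarith
  · have : 2 < p := lt_of_le_of_ne (not_lt.1 h) (Ne.symm hp2)
    rw [sub_pos, div_lt_one (by linarith)]; exact this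

lemma gam_le_one {p : ℝ} (hp : 1 < p) : gam p ≤ 1 := by
  unfold gam
  split_ifs with h
  · linarith
  · have : 0 < 2 / p := by positivity
    linarith

theorem finite_case {p ε : ℝ} (hp : 1 < p) (hp2 : p ≠ 2) (hε : 0 < ε) (hε1 : ε ≤ 1 / 10) :
    ∃ C : ℝ, ∀ (n : ℕ) (hn : 2 ≤ n) {Ω : Type} [Fintype Ω] (x : Ω → Fin n → ℝ)
      (hx : ∀ i j, i ≠ j → 0 < ∑ ω, |x ω i - x ω j| ^ p),
      ∃ d : ℕ, (d : ℝ) ≤ Real.exp (C * Real.log n ^ gam p) ∧
        ∃ (u : Fin d → Fin n → ℝ) (s : ℝ), 0 < s ∧ ∀ i j,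
          (1 - 6 * ε) * s * ∑ ω, |x ω i - x ω j| ^ p ≤ ∑ k, |u k i - u k j| ^ p ∧
          ∑ k, |u k i - u k j| ^ p ≤ (1 + 7 * ε) * s * ∑ ω, |x ω i - x ω j| ^ p := by
  obtain ⟨C1, C2, hC1, hC2, hcore⟩ := core hp hp2 hε hε1
  have hγ := gam_pos hp hp2
  have hγ1 := gam_le_one hp
  set γ := gam p with hγdef
  set C3 := C1 + 1 / γ with hC3
  have hγi : 0 < 1 / γ := by positivity
  refine ⟨C2 * ((C3 + 1) * 26), fun n hn Ω _ x hx => ?_⟩
  set A : Fin n × Fin n → ℝ := fun e => ∑ ω, |x ω e.1 - x ω e.2| ^ p with hA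
  have hA0 : ∀ e, 0 ≤ A e := fun e => sum_nonneg fun ω _ => by positivity
  set κ : Fin n × Fin n → ℝ := fun e => A e ^ (-(1 / p)) with hκ
  have hκp : ∀ e (t : ℝ), |κ e * t| ^ p = (A e)⁻¹ * |t| ^ p := by
    intro e t
    rw [abs_mul, Real.mul_rpow (abs_nonneg _) (abs_nonneg _),
      abs_of_nonneg (Real.rpow_nonneg (hA0 e) _), ← Real.rpow_mul (hA0 e), neg_mul,
      one_div_mul_cancel (by linarith), Real.rpow_neg_one]
  have hs : ∀ {I : Type} [Fintype I] (u : I → Fin n → ℝ) e,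
      ∑ k, |sig κ (u k) e| ^ p = (A e)⁻¹ * ∑ k, |u k e.1 - u k e.2| ^ p := by
    intro I _ u e
    rw [mul_sum]
    exact sum_congr rfl fun k _ => hκp e _
  set L := Real.log n with hL
  have hn' : (2 : ℝ) ≤ n := by exact_mod_cast hn
  have hL2 : 1 / 2 ≤ L := by
    have := Real.log_le_log (by norm_num) hn'
    linarith [Real.log_two_gt_d9]
  set R := 1 + 24 * L with hR
  have hR1 : 1 ≤ R := by linarith
  have hRγ : 1 ≤ R ^ γ := Real.one_le_rpow hR1 hγ.le
  set M := ⌈C3 * R ^ γ⌉₊ with hM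
  have hM1 : C3 * R ^ γ ≤ M := Nat.le_ceil _
  have hM2 : (M : ℝ) ≤ (C3 + 1) * R ^ γ := by
    have := (Nat.ceil_lt_add_one (by positivity : 0 ≤ C3 * R ^ γ)).le
    rw [← hM] at this
    linarith
  have hC3R : C3 ≤ C3 * R ^ γ := le_mul_of_one_le_right (by linarith) hRγ
  have hcard : (Fintype.card (Fin n) : ℝ) = n := by simp
  obtain ⟨d, hd, u, s, hs0, hu⟩ := hcore (V := Fin n) (by simpa using hn) κ x
    (fun e => by
      rw [hs]
      exact inv_mul_le_one_of_le₀ le_rfl (hA0 e)) M (by linarith)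
    (by
      rw [hcard, ← hL, ← hR]
      unfold cost
      split_ifs with h
      · have : γ = 2 - p := by rw [hγdef, gam, if_pos h]
        rw [← this]
        nlinarith
      · have hg : γ * p = p - 2 := by rw [hγdef, gam, if_neg h]; field_simp
        have hM0 : (0 : ℝ) < M := by linarith
        rw [← mul_div_assoc, div_le_iff₀ (by positivity)]
        have a1 : (M : ℝ) * (M : ℝ) ^ (p - 1) = (M : ℝ) ^ p := by
          rw [mul_comm, ← Real.rpow_add_one hM0.ne']; congr 1; ring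
        have a2 : (C3 * R ^ γ) ^ p ≤ (M : ℝ) ^ p :=
          Real.rpow_le_rpow (by positivity) hM1 (by linarith)
        rw [Real.mul_rpow (by linarith) (by positivity), ← Real.rpow_mul (by linarith), hg] at a2
        have a3 : C3 ≤ C3 ^ p := by
          have := Real.rpow_le_rpow_of_exponent_le (x := C3) (by linarith) hp.le
          rwa [Real.rpow_one] at this
        have a4 : 0 ≤ R ^ (p - 2) := by positivity
        rw [a1]
        nlinarith)
    (by
      rw [hcard, ← hL, ← hR, ← Real.log_le_iff_le_exp (by linarith)]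
      have a1 := Real.log_le_rpow_div (x := R) (by linarith) hγ
      have a2 : R ^ γ / γ = 1 / γ * R ^ γ := by ring
      nlinarith)
  refine ⟨d, hd.trans (Real.exp_le_exp.2 ?_), u, s, hs0, fun i j => ?_⟩
  · rw [mul_assoc]
    refine mul_le_mul_of_nonneg_left (hM2.trans ?_) hC2.le
    rw [mul_assoc]
    refine mul_le_mul_of_nonneg_left ?_ (by linarith)
    calc R ^ γ ≤ (26 * L) ^ γ := Real.rpow_le_rpow (by linarith) (by linarith) hγ.le
      _ = 26 ^ γ * L ^ γ := Real.mul_rpow (by norm_num) (by linarith)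
      _ ≤ 26 * L ^ γ := by
          have := Real.rpow_le_rpow_of_exponent_le (x := 26) (by norm_num) hγ1
          rw [Real.rpow_one] at this
          exact mul_le_mul_of_nonneg_right this (by positivity)
  · rcases eq_or_ne i j with rfl | hij
    · simp [Real.zero_rpow (by linarith : p ≠ 0)]
    · have hApos : 0 < A (i, j) := hx i j hij
      obtain ⟨b1, b2⟩ := hu (i, j) (by rw [hs]; exact inv_mul_cancel₀ hApos.ne')
      rw [hs, ← div_eq_inv_mul] at b1 b2
      rw [le_div_iff₀ hApos] at b1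
      rw [div_le_iff₀ hApos] at b2
      exact ⟨b1, b2⟩

lemma Lp_norm_rpow {α : Type*} [MeasurableSpace α] {μ : Measure α} {p : ℝ≥0∞} [Fact (1 ≤ p)]
    (hptop : p ≠ ⊤) (f g : Lp ℝ p μ) :
    Integrable (fun a => |f a - g a| ^ p.toReal) μ ∧
      ‖f - g‖ ^ p.toReal = ∫ a, |f a - g a| ^ p.toReal ∂μ := by
  have hp0 : p ≠ 0 := (lt_of_lt_of_le zero_lt_one (Fact.out : 1 ≤ p)).ne'
  have hpr : 0 < p.toReal := ENNReal.toReal_pos hp0 hptop
  have hae : (fun a => ‖(f - g : Lp ℝ p μ) a‖ ^ p.toReal) =ᵐ[μ]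
      fun a => |f a - g a| ^ p.toReal := by
    filter_upwards [Lp.coeFn_sub f g] with a ha
    rw [ha, Pi.sub_apply, Real.norm_eq_abs]
  refine ⟨((Lp.memLp (f - g)).integrable_norm_rpow hp0 hptop).congr hae, ?_⟩
  rw [Lp.norm_def, (Lp.memLp (f - g)).eLpNorm_eq_integral_rpow_norm hp0 hptop,
    ENNReal.toReal_ofReal (Real.rpow_nonneg (integral_nonneg fun a => by positivity) _),
    Real.rpow_inv_rpow (integral_nonneg fun a => by positivity) hpr.ne', integral_congr_ae hae]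

lemma reduction {α : Type*} [MeasurableSpace α] {μ : Measure α} {p : ℝ≥0∞} [Fact (1 ≤ p)]
    (hptop : p ≠ ⊤) {n : ℕ} (x : Fin n → Lp ℝ p μ) {δ : ℝ} (hδ : 0 < δ) :
    ∃ (Ω : Type) (_ : Fintype Ω) (t : Ω → Fin n → ℝ), ∀ i j,
      |‖x i - x j‖ ^ p.toReal - ∑ ω, |t ω i - t ω j| ^ p.toReal| < δ := by
  have hp0 : p ≠ 0 := (lt_of_lt_of_le zero_lt_one (Fact.out : 1 ≤ p)).ne'
  have hpr : 0 < p.toReal := ENNReal.toReal_pos hp0 hptop
  set q := p.toReal with hq
  set K : Set (Fin n × Fin n → ℝ) := {y | ∃ (Ω : Type) (_ : Fintype Ω) (t : Ω → Fin n → ℝ),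
    y = fun e => ∑ ω, |t ω e.1 - t ω e.2| ^ q} with hK
  have hsc : ∀ (c : ℝ), 0 ≤ c → ∀ a b : ℝ, |c ^ (1 / q) * a - c ^ (1 / q) * b| ^ q =
      c * |a - b| ^ q := by
    intro c hc a b
    rw [← mul_sub, abs_mul, Real.mul_rpow (abs_nonneg _) (abs_nonneg _),
      abs_of_nonneg (Real.rpow_nonneg hc _), ← Real.rpow_mul hc, one_div_mul_cancel hpr.ne',
      Real.rpow_one]
  have hKc : Convex ℝ K := by
    rintro _ ⟨Ω, _, t, rfl⟩ _ ⟨Ω', _, t', rfl⟩ a b ha hb hab
    refine ⟨Ω ⊕ Ω', inferInstance, Sum.elim (fun ω i => a ^ (1 / q) * t ω i)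
      (fun ω i => b ^ (1 / q) * t' ω i), ?_⟩
    funext e
    simp only [Pi.add_apply, Pi.smul_apply, smul_eq_mul, Fintype.sum_sum_type, Sum.elim_inl,
      Sum.elim_inr, hsc a ha, hsc b hb, mul_sum]
  have hmem : (fun e : Fin n × Fin n => ‖x e.1 - x e.2‖ ^ q) ∈ closure K := by
    by_contra hc
    obtain ⟨f, u, h1, h2⟩ := geometric_hahn_banach_point_closed hKc.closure isClosed_closure hc
    have hone : ∀ (t : Fin n → ℝ) (c : ℝ), 0 ≤ c →
        u < c * f (fun e => |t e.1 - t e.2| ^ q) := by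
      intro t c hc
      have := h2 (c • fun e => |t e.1 - t e.2| ^ q) (subset_closure ⟨Unit, inferInstance,
        fun _ i => c ^ (1 / q) * t i, by
          funext e
          simp only [Pi.smul_apply, smul_eq_mul, univ_unique, sum_singleton, hsc c hc]⟩)
      rwa [map_smul, smul_eq_mul] at this
    have hu : u < 0 := by simpa using hone 0 0 le_rfl
    have hpos : ∀ t : Fin n → ℝ, 0 ≤ f (fun e => |t e.1 - t e.2| ^ q) := by
      intro t
      by_contra hneg
      push Not at hneg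
      have := hone t (u / f (fun e => |t e.1 - t e.2| ^ q)) (div_nonneg_of_nonpos hu.le hneg.le)
      rw [div_mul_cancel₀ _ hneg.ne] at this
      exact lt_irrefl _ this
    have h3 : f (fun e : Fin n × Fin n => ‖x e.1 - x e.2‖ ^ q) =
        ∫ a, f (fun e => |x e.1 a - x e.2 a| ^ q) ∂μ := by
      simp only [clm_eq_sum f (fun e => _ ^ q)]
      rw [integral_finsetSum _ fun e _ => (Lp_norm_rpow hptop (x e.1) (x e.2)).1.mul_const _]
      refine sum_congr rfl fun e _ => ?_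
      rw [integral_mul_const, (Lp_norm_rpow hptop (x e.1) (x e.2)).2]
    have h4 : 0 ≤ ∫ a, f (fun e => |x e.1 a - x e.2 a| ^ q) ∂μ :=
      integral_nonneg fun a => hpos (fun i => x i a)
    linarith
  obtain ⟨_, ⟨Ω, hΩ, t, rfl⟩, hy⟩ := Metric.mem_closure_iff.1 hmem δ hδ
  refine ⟨Ω, hΩ, t, fun i j => ?_⟩
  have := (dist_le_pi_dist _ _ (i, j)).trans_lt hy
  rwa [Real.dist_eq] at this

lemma PiLp_norm_rpow {p : ℝ≥0∞} [Fact (1 ≤ p)] (hptop : p ≠ ⊤) {d : ℕ}
    (f g : PiLp p (fun _ : Fin d => ℝ)) :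
    ‖f - g‖ ^ p.toReal = ∑ k, |f k - g k| ^ p.toReal := by
  have hp0 : p ≠ 0 := (lt_of_lt_of_le zero_lt_one (Fact.out : 1 ≤ p)).ne'
  have hpr : 0 < p.toReal := ENNReal.toReal_pos hp0 hptop
  rw [PiLp.norm_eq_sum hpr, ← Real.rpow_mul (sum_nonneg fun _ _ => by positivity),
    one_div_mul_cancel hpr.ne', Real.rpow_one]
  rfl

universe u

theorem main358
    (p : ℝ≥0∞) [Fact (1 ≤ p)] (hp1 : 1 < p) (hptop : p ≠ ⊤) (hp2 : p ≠ 2)
    (D : ℝ) (hD : 1 < D) :
    ∃ C : ℝ, ∀ (n : ℕ), 2 ≤ n →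
      ∀ (α : Type u) [MeasurableSpace α] (μ : Measure α) (x : Fin n → Lp ℝ p μ),
        Function.Injective x →
        ∃ d : ℕ, (d : ℝ) ≤ Real.exp (C * Real.log n ^ gam p.toReal) ∧
          ∃ (y : Fin n → PiLp p (fun _ : Fin d => ℝ)) (s : ℝ), 0 < s ∧
            ∀ i j, s * ‖x i - x j‖ ≤ ‖y i - y j‖ ∧ ‖y i - y j‖ ≤ D * s * ‖x i - x j‖ := by
  set q := p.toReal with hq
  have hq1 : 1 < q := by
    have := (ENNReal.toReal_lt_toReal ENNReal.one_ne_top hptop).2 hp1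
    simpa using this
  have hq2 : q ≠ 2 := by
    intro h
    apply hp2
    rw [← ENNReal.ofReal_toReal hptop, ← hq, h]; simp
  set ε : ℝ := min (1 / 20) ((D - 1) / 40) with hε
  have hε0 : 0 < ε := lt_min (by norm_num) (by linarith)
  have hε1 : ε ≤ 1 / 20 := min_le_left _ _
  have hε2 : ε ≤ (D - 1) / 40 := min_le_right _ _
  obtain ⟨C, hC⟩ := finite_case hq1 hq2 hε0 (by linarith)
  refine ⟨C, fun n hn α _ μ x hx => ?_⟩
  obtain ⟨δ, hδ0, hδ⟩ : ∃ δ : ℝ, 0 < δ ∧ ∀ i j, i ≠ j → δ ≤ ε * ‖x i - x j‖ ^ q := by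
    have hne : (univ.filter fun e : Fin n × Fin n => e.1 ≠ e.2).Nonempty :=
      ⟨(⟨0, by omega⟩, ⟨1, by omega⟩), by simp⟩
    obtain ⟨e, he, hmin⟩ := exists_min_image _ (fun e : Fin n × Fin n =>
      ε * ‖x e.1 - x e.2‖ ^ q) hne
    refine ⟨_, mul_pos hε0 (Real.rpow_pos_of_pos (norm_pos_iff.2 (sub_ne_zero.2
      (hx.ne (mem_filter.1 he).2))) q), fun i j hij => hmin (i, j) (by simpa using hij)⟩
  obtain ⟨Ω, _, t, ht⟩ := reduction hptop x hδ0
  have hb : ∀ i j, (1 - ε) * ‖x i - x j‖ ^ q ≤ ∑ ω, |t ω i - t ω j| ^ q ∧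
      ∑ ω, |t ω i - t ω j| ^ q ≤ (1 + ε) * ‖x i - x j‖ ^ q := by
    intro i j
    rcases eq_or_ne i j with rfl | hij
    · simp [Real.zero_rpow (by linarith : q ≠ 0)]
    · obtain ⟨a1, a2⟩ := abs_lt.1 (ht i j)
      have := hδ i j hij
      constructor <;> linarith
  obtain ⟨d, hd, u, s, hs, hu⟩ := hC n hn t (fun i j hij => by
    have a1 := (hb i j).1
    have a2 : 0 < ‖x i - x j‖ ^ q :=
      Real.rpow_pos_of_pos (norm_pos_iff.2 (sub_ne_zero.2 (hx.ne hij))) q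
    exact lt_of_lt_of_le (mul_pos (by linarith) a2) a1)
  set s0 := (1 - 6 * ε) * s * (1 - ε) with hs0
  have hs00 : 0 < s0 := mul_pos (mul_pos (by linarith) hs) (by linarith)
  have hsq : (s0 ^ (1 / q)) ^ q = s0 := by
    rw [← Real.rpow_mul hs00.le, one_div_mul_cancel (by linarith), Real.rpow_one]
  refine ⟨d, hd, fun i => WithLp.toLp p (fun k => u k i), s0 ^ (1 / q), by positivity,
    fun i j => ?_⟩
  have hN := PiLp_norm_rpow hptop (WithLp.toLp p (fun k => u k i)) (WithLp.toLp p (fun k => u k j))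
  simp only [← hq] at hN
  obtain ⟨a1, a2⟩ := hu i j
  obtain ⟨b1, b2⟩ := hb i j
  have hρ : 0 ≤ ‖x i - x j‖ ^ q := by positivity
  constructor
  · rw [← Real.rpow_le_rpow_iff (z := q) (by positivity) (norm_nonneg _) (by linarith), hN,
      Real.mul_rpow (by positivity) (norm_nonneg _), hsq]
    refine le_trans ?_ a1
    rw [hs0, mul_assoc]
    exact mul_le_mul_of_nonneg_left b1 (mul_nonneg (by linarith) hs.le)
  · rw [← Real.rpow_le_rpow_iff (z := q) (norm_nonneg _) (by positivity) (by linarith), hN,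
      Real.mul_rpow (by positivity) (norm_nonneg _), Real.mul_rpow (by positivity) (by positivity),
      hsq]
    have c1 : D ≤ D ^ q := by
      have := Real.rpow_le_rpow_of_exponent_le hD.le hq1.le
      rwa [Real.rpow_one] at this
    have c2 : (1 + 7 * ε) * (1 + ε) ≤ D * ((1 - 6 * ε) * (1 - ε)) := by
      have d1 : (1 + 40 * ε) * ((1 - 6 * ε) * (1 - ε)) ≤ D * ((1 - 6 * ε) * (1 - ε)) :=
        mul_le_mul_of_nonneg_right (by linarith) (mul_nonneg (by linarith) (by linarith))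
      nlinarith [mul_pos hε0 hε0, mul_pos (mul_pos hε0 hε0) hε0,
        mul_le_mul_of_nonneg_left hε1 hε0.le]
    calc _ ≤ (1 + 7 * ε) * s * ((1 + ε) * ‖x i - x j‖ ^ q) :=
          a2.trans (mul_le_mul_of_nonneg_left b2 (by positivity))
      _ = (1 + 7 * ε) * (1 + ε) * (s * ‖x i - x j‖ ^ q) := by ring
      _ ≤ D * ((1 - 6 * ε) * (1 - ε)) * (s * ‖x i - x j‖ ^ q) :=
          mul_le_mul_of_nonneg_right c2 (by positivity)
      _ = D * s0 * ‖x i - x j‖ ^ q := by rw [hs0]; ring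
      _ ≤ _ := mul_le_mul_of_nonneg_right (mul_le_mul_of_nonneg_right c1 hs00.le) hρ

end Crest.Agent.H7.Dr
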