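import Crest.Agent.H7.DrG

set_option autoImplicit false
set_option linter.unusedSectionVars false
set_option linter.unusedVariables false

open Finset MeasureTheory
open scoped ENNReal

namespace Crest.Agent.H7.Dr

lemma I1s {p : ℝ} (hp : 1 < p) (a : ℝ) {y : ℝ} (hy : y ≠ 0) :
    |a| ^ p < (|a + y| ^ p + |a - y| ^ p) / 2 := by
  by_cases h : |a + y| = |a - y|
  · have h2 : (a + y) ^ 2 = (a - y) ^ 2 := by rw [← sq_abs, h, sq_abs]
    have ha : a = 0 := by
      have : a * y = 0 := by linarith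
      exact (mul_eq_zero.1 this).resolve_right hy
    subst ha
    have : 0 < |y| ^ p := Real.rpow_pos_of_pos (abs_pos.2 hy) p
    simp only [abs_zero, zero_add, zero_sub, abs_neg, Real.zero_rpow (by linarith : p ≠ 0)]
    linarith
  · have := (strictConvexOn_rpow hp).2 (Set.mem_Ici.2 (abs_nonneg (a + y)))
      (Set.mem_Ici.2 (abs_nonneg (a - y))) h (by norm_num : (0 : ℝ) < 1 / 2)
      (by norm_num : (0 : ℝ) < 1 / 2) (by norm_num)
    simp only [smul_eq_mul] at this
    have h1 : |a| ≤ 1 / 2 * |a + y| + 1 / 2 * |a - y| := by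
      have := abs_add_le (a + y) (a - y)
      rw [show a + y + (a - y) = 2 * a by ring, abs_mul, abs_two] at this
      linarith
    have h3 := Real.rpow_le_rpow (abs_nonneg a) h1 (by linarith : 0 ≤ p)
    linarith

noncomputable def df (p a b : ℝ) : ℝ := |a + b| ^ p + |a - b| ^ p - 2 * |a| ^ p - 2 * |b| ^ p

lemma df_zero {p a b : ℝ} (hp : 0 < p) (h : a * b = 0) : df p a b = 0 := by
  unfold df
  rcases mul_eq_zero.1 h with h | h <;> subst h <;> simp [Real.zero_rpow hp.ne'] <;> ring

lemma split_half {p s t : ℝ} (hs : 0 < s) : s ^ (p / 2) = s * s ^ (p / 2 - 1) := by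
  rw [mul_comm, ← Real.rpow_add_one hs.ne']; congr 1; ring

lemma df_neg {p a b : ℝ} (hp : 0 < p) (hp2 : p < 2) (h : a * b ≠ 0) : df p a b < 0 := by
  have ha : 0 < a ^ 2 := by have := left_ne_zero_of_mul h; positivity
  have hb : 0 < b ^ 2 := by have := right_ne_zero_of_mul h; positivity
  have h1 := I2a hp.le hp2.le a b
  have h2 : (a ^ 2 + b ^ 2) ^ (p / 2 - 1) < (a ^ 2) ^ (p / 2 - 1) :=
    Real.rpow_lt_rpow_of_neg ha (by linarith) (by linarith)
  have h3 : (a ^ 2 + b ^ 2) ^ (p / 2 - 1) < (b ^ 2) ^ (p / 2 - 1) :=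
    Real.rpow_lt_rpow_of_neg hb (by linarith) (by linarith)
  unfold df
  rw [abs_rpow_eq_sq a, abs_rpow_eq_sq b, split_half (t := 0) ha, split_half (t := 0) hb]
  rw [split_half (t := 0) (by linarith : 0 < a ^ 2 + b ^ 2)] at h1
  nlinarith [mul_lt_mul_of_pos_left h2 ha, mul_lt_mul_of_pos_left h3 hb]

lemma df_pos {p a b : ℝ} (hp2 : 2 < p) (h : a * b ≠ 0) : 0 < df p a b := by
  have ha : 0 < a ^ 2 := by have := left_ne_zero_of_mul h; positivity
  have hb : 0 < b ^ 2 := by have := right_ne_zero_of_mul h; positivity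
  have h1 := I3a hp2.le a b
  have h2 : (a ^ 2) ^ (p / 2 - 1) < (a ^ 2 + b ^ 2) ^ (p / 2 - 1) :=
    Real.rpow_lt_rpow ha.le (by linarith) (by linarith)
  have h3 : (b ^ 2) ^ (p / 2 - 1) < (a ^ 2 + b ^ 2) ^ (p / 2 - 1) :=
    Real.rpow_lt_rpow hb.le (by linarith) (by linarith)
  unfold df
  rw [abs_rpow_eq_sq a, abs_rpow_eq_sq b, split_half (t := 0) ha, split_half (t := 0) hb]
  rw [split_half (t := 0) (by linarith : 0 < a ^ 2 + b ^ 2)] at h1
  nlinarith [mul_lt_mul_of_pos_left h2 ha, mul_lt_mul_of_pos_left h3 hb]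

lemma sum_df_eq_zero_iff {p : ℝ} (hp : 0 < p) (hp2 : p ≠ 2) {ι : Type*} [Fintype ι]
    (a b : ι → ℝ) : ∑ c, df p (a c) (b c) = 0 ↔ ∀ c, a c * b c = 0 := by
  refine ⟨fun h c => ?_, fun h => sum_eq_zero fun c _ => df_zero hp (h c)⟩
  by_contra hc
  rcases lt_or_gt_of_ne hp2 with hlt | hgt
  · have h1 : ∀ c, df p (a c) (b c) ≤ 0 := fun c => by
      by_cases h' : a c * b c = 0
      · exact (df_zero hp h').le
      · exact (df_neg hp hlt h').le
    exact (df_neg hp hlt hc).ne ((sum_eq_zero_iff_of_nonpos fun c _ => h1 c).1 h c (mem_univ c))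
  · have h1 : ∀ c, 0 ≤ df p (a c) (b c) := fun c => by
      by_cases h' : a c * b c = 0
      · exact (df_zero hp h').ge
      · exact (df_pos hgt h').le
    exact (df_pos hgt hc).ne' ((sum_eq_zero_iff_of_nonneg fun c _ => h1 c).1 h c (mem_univ c))

lemma neg_of_dist {p : ℝ} (hp : 1 < p) {ι : Type*} [Fintype ι] (A B : ι → ℝ) (m : ℝ)
    (hA : ∑ c, |A c| ^ p = m) (hB : ∑ c, |B c| ^ p = m)
    (hAB : ∑ c, |A c - B c| ^ p = 2 ^ p * m) (c : ι) : B c = - A c := by
  by_contra hc
  have e : ∀ c, |A c - B c| ^ p = 2 ^ p * |(A c - B c) / 2| ^ p := by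
    intro c
    rw [← Real.mul_rpow (by norm_num) (abs_nonneg _), abs_div, abs_two]
    congr 1; ring
  have e1 : ∀ c, (A c - B c) / 2 + (A c + B c) / 2 = A c := fun c => by ring
  have e2 : ∀ c, |(A c - B c) / 2 - (A c + B c) / 2| = |B c| := fun c => by
    rw [show (A c - B c) / 2 - (A c + B c) / 2 = - B c by ring, abs_neg]
  have h1 : ∑ c, |(A c - B c) / 2| ^ p < ∑ c, (|A c| ^ p + |B c| ^ p) / 2 := by
    refine sum_lt_sum (fun c _ => ?_) ⟨c, mem_univ c, ?_⟩
    · have := I1 hp.le ((A c - B c) / 2) ((A c + B c) / 2)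
      rwa [e1, e2] at this
    · have := I1s hp ((A c - B c) / 2) (y := (A c + B c) / 2) (fun h => hc (by linarith))
      rwa [e1, e2] at this
  rw [← sum_div, sum_add_distrib, hA, hB] at h1
  simp only [e, ← mul_sum] at hAB
  have h2 : (0 : ℝ) < 2 ^ p := by positivity
  have := mul_left_cancel₀ h2.ne' hAB
  linarith

/-- base vectors: rows and columns of the grid -/
def gv (k : ℕ) : Fin k ⊕ Fin k → Fin k × Fin k → ℝ
  | Sum.inl i, w => if w.1 = i then 1 else 0
  | Sum.inr j, w => if w.2 = j then 1 else 0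

def GG (k : ℕ) : Option (Bool × (Fin k ⊕ Fin k)) → Fin k × Fin k → ℝ
  | none, _ => 0
  | some (true, a), w => gv k a w
  | some (false, a), w => - gv k a w

lemma comb_core {p : ℝ} (hp : 1 < p) (hp2 : p ≠ 2) (k d : ℕ)
    (Y : Option (Bool × (Fin k ⊕ Fin k)) → Fin d → ℝ) (s : ℝ) (hs : 0 < s)
    (hY : ∀ a b, ∑ c, |Y a c - Y b c| ^ p = s * ∑ w, |GG k a w - GG k b w| ^ p) :
    k ^ 2 ≤ d := by
  classical
  set Z : Fin k ⊕ Fin k → Fin d → ℝ := fun a c => Y (some (true, a)) c - Y none c with hZ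
  have hneg : ∀ a c, Y (some (false, a)) c - Y none c = - Z a c := by
    intro a c
    refine neg_of_dist hp (Z a) (fun c => Y (some (false, a)) c - Y none c)
      (s * ∑ w, |gv k a w| ^ p) ?_ ?_ ?_ c
    · simp only [hZ]; rw [hY]; simp [GG]
    · rw [hY]; simp [GG]
    · simp only [hZ, sub_sub_sub_cancel_right]
      rw [hY, mul_left_comm, mul_sum (s := univ) (a := (2 : ℝ) ^ p)]
      congr 1
      refine sum_congr rfl fun w _ => ?_
      simp only [GG]
      rw [← Real.mul_rpow (by norm_num) (abs_nonneg _), sub_neg_eq_add, ← two_mul, abs_mul,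
        abs_two]
  have hdf : ∀ a b, ∑ c, df p (Z a c) (Z b c) = s * ∑ w, df p (gv k a w) (gv k b w) := by
    intro a b
    have h1 : ∑ c, |Z a c + Z b c| ^ p = s * ∑ w, |gv k a w + gv k b w| ^ p := by
      have := hY (some (true, a)) (some (false, b))
      simp only [GG, sub_neg_eq_add] at this
      rw [← this]
      refine sum_congr rfl fun c _ => ?_
      have h := hneg b c
      congr 2
      simp only [hZ] at h ⊢
      linarith
    have h2 : ∑ c, |Z a c - Z b c| ^ p = s * ∑ w, |gv k a w - gv k b w| ^ p := by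
      have := hY (some (true, a)) (some (true, b))
      simp only [GG] at this
      rw [← this]
      simp only [hZ, sub_sub_sub_cancel_right]
    have h3 : ∀ a, ∑ c, |Z a c| ^ p = s * ∑ w, |gv k a w| ^ p := by
      intro a
      simp only [hZ]; rw [hY]; simp [GG]
    simp only [df, sum_sub_distrib, sum_add_distrib, ← mul_sum, h1, h2, h3]
    ring
  have hiff : ∀ a b, (∀ c, Z a c * Z b c = 0) ↔ ∀ w, gv k a w * gv k b w = 0 := by
    intro a b
    rw [← sum_df_eq_zero_iff (by linarith) hp2, ← sum_df_eq_zero_iff (by linarith) hp2, hdf]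
    exact ⟨fun h => (mul_eq_zero.1 h).resolve_left hs.ne', fun h => by rw [h, mul_zero]⟩
  have hex : ∀ w : Fin k × Fin k, ∃ c, Z (Sum.inl w.1) c * Z (Sum.inr w.2) c ≠ 0 := by
    intro w
    by_contra hc
    push Not at hc
    have := (hiff _ _).1 hc w
    simp [gv] at this
  choose c hc using hex
  have hinj : Function.Injective c := by
    intro w w' h
    have a1 := left_ne_zero_of_mul (hc w)
    have a2 := right_ne_zero_of_mul (hc w)
    have a3 := left_ne_zero_of_mul (hc w')
    have a4 := right_ne_zero_of_mul (hc w')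
    rw [← h] at a3 a4
    refine Prod.ext ?_ ?_
    · by_contra hne
      refine mul_ne_zero a1 a3 ((hiff (Sum.inl w.1) (Sum.inl w'.1)).2 (fun v => ?_) _)
      simp only [gv]
      split_ifs with h1 h2
      · exact absurd (h1.symm.trans h2) hne
      all_goals simp
    · by_contra hne
      refine mul_ne_zero a2 a4 ((hiff (Sum.inr w.2) (Sum.inr w'.2)).2 (fun v => ?_) _)
      simp only [gv]
      split_ifs with h1 h2
      · exact absurd (h1.symm.trans h2) hne
      all_goals simp
  have := Fintype.card_le_of_injective c hinj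
  simpa [sq] using this

lemma gv_01 (k : ℕ) (a : Fin k ⊕ Fin k) (w : Fin k × Fin k) : gv k a w = 0 ∨ gv k a w = 1 := by
  rcases a with i | j <;> simp only [gv] <;> split_ifs <;> simp

lemma gv_ex (k : ℕ) (a : Fin k ⊕ Fin k) : ∃ w, gv k a w = 1 := by
  rcases a with i | j
  · exact ⟨(i, i), by simp [gv]⟩
  · exact ⟨(j, j), by simp [gv]⟩

lemma gv_inj {k : ℕ} (hk : 2 ≤ k) : Function.Injective (gv k) := by
  have hnt : Nontrivial (Fin k) := Fin.nontrivial_iff_two_le.2 hk
  intro a b h
  rcases a with i | i <;> rcases b with j | j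
  · have := congrFun h (i, i)
    simp only [gv, if_true] at this
    by_contra hne
    rw [if_neg (fun h' => hne (by rw [h']))] at this
    exact one_ne_zero this
  · obtain ⟨j', hj'⟩ := exists_ne j
    have := congrFun h (i, j')
    simp [gv, hj'] at this
  · obtain ⟨j', hj'⟩ := exists_ne j
    have := congrFun h (j', i)
    simp [gv, hj'] at this
  · have := congrFun h (i, i)
    simp only [gv, if_true] at this
    by_contra hne
    rw [if_neg (fun h' => hne (by rw [h']))] at this
    exact one_ne_zero this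

lemma GG_inj {k : ℕ} (hk : 2 ≤ k) : Function.Injective (GG k) := by
  intro a b h
  rcases a with _ | ⟨_ | _, a⟩ <;> rcases b with _ | ⟨_ | _, b⟩
  · rfl
  · obtain ⟨w, hw⟩ := gv_ex k b
    have := congrFun h w
    simp [GG, hw] at this
  · obtain ⟨w, hw⟩ := gv_ex k b
    have := congrFun h w
    simp [GG, hw] at this
  · obtain ⟨w, hw⟩ := gv_ex k a
    have := congrFun h w
    simp [GG, hw] at this
  · have : gv k a = gv k b := by
      funext w
      have := congrFun h w
      simpa [GG] using this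
    rw [gv_inj hk this]
  · obtain ⟨w, hw⟩ := gv_ex k a
    have := congrFun h w
    simp only [GG, hw] at this
    rcases gv_01 k b w with h' | h' <;> rw [h'] at this <;> norm_num at this
  · obtain ⟨w, hw⟩ := gv_ex k a
    have := congrFun h w
    simp [GG, hw] at this
  · obtain ⟨w, hw⟩ := gv_ex k a
    have := congrFun h w
    simp only [GG, hw] at this
    rcases gv_01 k b w with h' | h' <;> rw [h'] at this <;> norm_num at this
  · have : gv k a = gv k b := by
      funext w
      have := congrFun h w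
      simpa [GG] using this
    rw [gv_inj hk this]

lemma GG_le (k : ℕ) (a : Option (Bool × (Fin k ⊕ Fin k))) (w : Fin k × Fin k) : GG k a w ≤ 1 := by
  rcases a with _ | ⟨_ | _, a⟩ <;> simp only [GG]
  · norm_num
  · rcases gv_01 k a w with h | h <;> rw [h] <;> norm_num
  · rcases gv_01 k a w with h | h <;> rw [h] <;> norm_num

theorem main359
    (p : ℝ≥0∞) [Fact (1 ≤ p)] (hp1 : 1 < p) (hptop : p ≠ ⊤) (hp2 : p ≠ 2)
    (n : ℕ) (hn : 9 ≤ n) (d : ℕ)
    (hd : ∀ (α : Type) [MeasurableSpace α] (μ : Measure α) (x : Fin n → Lp ℝ p μ),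
      Function.Injective x →
      ∃ (y : Fin n → PiLp p (fun _ : Fin d => ℝ)) (s : ℝ), 0 < s ∧
        ∀ i j, ‖y i - y j‖ = s * ‖x i - x j‖) :
    ((n - 1) / 4) ^ 2 ≤ d := by
  classical
  set q := p.toReal with hq
  have hq1 : 1 < q := by
    have := (ENNReal.toReal_lt_toReal ENNReal.one_ne_top hptop).2 hp1
    simpa using this
  have hq2 : q ≠ 2 := by
    intro h
    apply hp2
    rw [← ENNReal.ofReal_toReal hptop, ← hq, h]; simp
  set k := (n - 1) / 4 with hk
  have hk2 : 2 ≤ k := by omega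
  obtain ⟨e⟩ : Nonempty (Option (Bool × (Fin k ⊕ Fin k)) ↪ Fin n) :=
    Function.Embedding.nonempty_of_card_le (by simp; omega)
  set g : Fin n → Fin k × Fin k → ℝ := fun a w =>
    if h : ∃ i, e i = a then GG k h.choose w else (a : ℕ) + 2 with hg
  have hge : ∀ i, g (e i) = GG k i := by
    intro i
    funext w
    have h : ∃ i', e i' = e i := ⟨i, rfl⟩
    simp only [hg, dif_pos h]
    rw [e.injective h.choose_spec]
  have hginj : Function.Injective g := by
    intro a b h
    let w0 : Fin k × Fin k := (⟨0, by omega⟩, ⟨0, by omega⟩)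
    by_cases ha : ∃ i, e i = a <;> by_cases hb : ∃ i, e i = b
    · obtain ⟨i, rfl⟩ := ha
      obtain ⟨j, rfl⟩ := hb
      rw [hge, hge] at h
      rw [GG_inj hk2 h]
    · obtain ⟨i, rfl⟩ := ha
      have := congrFun h w0
      rw [hge] at this
      simp only [hg, dif_neg hb] at this
      have h1 := GG_le k i w0
      have h2 : (0 : ℝ) ≤ (b : ℕ) := Nat.cast_nonneg _
      linarith
    · obtain ⟨i, rfl⟩ := hb
      have := congrFun h w0
      rw [hge] at this
      simp only [hg, dif_neg ha] at this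
      have h1 := GG_le k i w0
      have h2 : (0 : ℝ) ≤ (a : ℕ) := Nat.cast_nonneg _
      linarith
    · have := congrFun h w0
      simp only [hg, dif_neg ha, dif_neg hb, add_left_inj, Nat.cast_inj] at this
      exact Fin.ext this
  letI : MeasurableSpace (Fin k × Fin k) := ⊤
  have hmem : ∀ a, MemLp (g a) p (Measure.count : Measure (Fin k × Fin k)) :=
    fun a => MemLp.of_discrete
  have hcoe : ∀ a w, (hmem a).toLp (g a) w = g a w := fun a =>
    Measure.ae_count_iff.1 (hmem a).coeFn_toLp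
  obtain ⟨y, s, hs, hy⟩ := hd (Fin k × Fin k) Measure.count (fun a => (hmem a).toLp (g a))
    (fun a b h => hginj (by
      funext w
      rw [← hcoe a w, ← hcoe b w]
      exact congrArg (fun f : Lp ℝ p (Measure.count : Measure (Fin k × Fin k)) => f w) h))
  refine comb_core hq1 hq2 k d (fun a c => y (e a) c) (s ^ q) (by positivity) fun a b => ?_
  rw [hq, ← PiLp_norm_rpow hptop, hy, Real.mul_rpow hs.le (norm_nonneg _),
    (Lp_norm_rpow hptop _ _).2, integral_count]
  congr 1
  refine sum_congr rfl fun w _ => ?_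
  rw [hcoe, hcoe, hge, hge]

end Crest.Agent.H7.Dr
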